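import Vale.Agent.P237.Facets.Core
import Vale.Agent.P237.Asym.Approx

/-!
A compact intersection of halfspaces with interior, moved so that all support numbers are positive.
-/

namespace Vale.Agent.P237.Facets

open MeasureTheory Set Vale.Agent.P237 Vale.Agent.P237.Frusta
open scoped ENNReal RealInnerProductSpace Matrix

variable {n : ℕ}

/-- Nonzero normals and positive support numbers, with the same volume and projection body. -/
theorem exists_pos_data (hn : 1 ≤ n) {N : ℕ} (u : Fin N → EuclideanSpace ℝ (Fin n))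
    (h : Fin N → ℝ) (hK : IsCompact {x | ∀ i, ⟪u i, x⟫ ≤ h i})
    (hint : (interior {x | ∀ i, ⟪u i, x⟫ ≤ h i}).Nonempty) :
    ∃ (m : ℕ) (w : Fin m → Fin n → ℝ) (k : Fin m → ℝ),
      1 ≤ m ∧ m ≤ N ∧ (∀ a, w a ≠ 0) ∧ IsCompact (poly w 1) ∧ k ∈ pos m ∧
        volume (euclidean (poly w k)) = volume {x | ∀ i, ⟪u i, x⟫ ≤ h i} ∧
        projBody (euclidean (poly w k)) = projBody {x | ∀ i, ⟪u i, x⟫ ≤ h i} := by
  classical
  haveI : Nonempty (Fin n) := ⟨⟨0, hn⟩⟩
  set K := {x : EuclideanSpace ℝ (Fin n) | ∀ i, ⟪u i, x⟫ ≤ h i} with hKdef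
  obtain ⟨x₀, hx₀⟩ := hint
  have hx₀K : x₀ ∈ K := interior_subset hx₀
  have hstrict : ∀ i, u i ≠ 0 → ⟪u i, x₀⟫ < h i := by
    intro i hi
    have hc : Continuous fun t : ℝ => x₀ + t • u i := by fun_prop
    have hev := (hc.tendsto' 0 x₀ (by simp)).eventually (isOpen_interior.mem_nhds hx₀)
    obtain ⟨t, ht, ht0⟩ := ((hev.filter_mono nhdsWithin_le_nhds).and
      (self_mem_nhdsWithin (s := Ioi (0 : ℝ)))).exists
    have h1 : ⟪u i, x₀ + t • u i⟫ ≤ h i := (interior_subset ht : _ ∈ K) i
    rw [inner_add_right, inner_smul_right, real_inner_self_eq_norm_sq] at h1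
    have : 0 < t * ‖u i‖ ^ 2 := mul_pos ht0 (by positivity)
    linarith
  -- drop the trivial constraints and move `x₀` to the origin
  set S := Finset.univ.filter fun i => u i ≠ 0 with hS
  set m := S.card
  let j : Fin m → Fin N := fun a => (S.equivFin.symm a : Fin N)
  have hj : ∀ a, u (j a) ≠ 0 := fun a => by
    have : j a ∈ S := (S.equivFin.symm a).2
    simpa [hS] using this
  have hjs : ∀ i, u i ≠ 0 → ∃ a, j a = i := fun i hi =>
    ⟨S.equivFin ⟨i, by simp [hS, hi]⟩, by simp [j]⟩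
  set w : Fin m → Fin n → ℝ := fun a => (u (j a)).ofLp
  set k : Fin m → ℝ := fun a => h (j a) - ⟪u (j a), x₀⟫
  have hk : k ∈ pos m := fun a => sub_pos.mpr (hstrict _ (hj a))
  have hw : ∀ a, w a ≠ 0 := fun a e => hj a (WithLp.ofLp_injective 2 e)
  have hinner : ∀ a (y : Fin n → ℝ),
      ⟪u (j a), (WithLp.toLp 2 y : EuclideanSpace ℝ (Fin n))⟫ = y ⬝ᵥ w a := fun a y => by
    rw [real_inner_comm, inner_toLp]
  have hset : K = (fun x => x + x₀) '' euclidean (poly w k) := by
    ext x
    constructor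
    · intro hx
      refine ⟨x - x₀, ⟨(x - x₀).ofLp, fun a => ?_, rfl⟩, sub_add_cancel x x₀⟩
      rw [← hinner, WithLp.toLp_ofLp, inner_sub_right]
      simp only [k]
      linarith [hx (j a)]
    · rintro ⟨_, ⟨y, hy, rfl⟩, rfl⟩ i
      by_cases hi : u i = 0
      · rw [hi, inner_zero_left]
        simpa [hi] using hx₀K i
      · obtain ⟨a, rfl⟩ := hjs i hi
        have h1 := hy a
        rw [← hinner] at h1
        simp only [k] at h1
        rw [inner_add_right]
        linarith
  have hpk : IsCompact (poly w k) := by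
    have e : poly w k = (fun x => (x - x₀).ofLp) '' K := by
      rw [hset, image_image]
      ext y
      simp only [add_sub_cancel_right, mem_image, mem_euclidean]
      exact ⟨fun hy => ⟨WithLp.toLp 2 y, hy, rfl⟩, fun ⟨z, hz, e⟩ => e ▸ hz⟩
    rw [e]
    exact hK.image ((PiLp.continuous_ofLp 2 _).comp (continuous_id.sub continuous_const))
  have hm : 1 ≤ m := by
    by_contra hm0
    haveI : IsEmpty (Fin m) := by
      rw [Nat.eq_zero_of_not_pos hm0]; infer_instance
    have : poly w k = univ := eq_univ_of_forall fun x a => isEmptyElim a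
    rw [this] at hpk
    exact noncompact_univ _ hpk
  have hb : IsCompact (poly w 1) := by
    haveI : Nonempty (Fin m) := ⟨⟨0, hm⟩⟩
    obtain ⟨a₀, ha₀⟩ := Finite.exists_min k
    refine (hpk.smul (k a₀)⁻¹).of_isClosed_subset (isClosed_poly w 1) ?_
    rw [← poly_smul w k (inv_pos.mpr (hk a₀))]
    refine poly_mono w fun a => ?_
    rw [Pi.smul_apply, Pi.one_apply, smul_eq_mul, le_inv_mul_iff₀ (hk a₀), mul_one]
    exact ha₀ a
  have hmN : m ≤ N := (Finset.card_filter_le _ _).trans_eq (by simp)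
  refine ⟨m, w, k, hm, hmN, hw, hb, hk, ?_, ?_⟩
  · rw [hset, image_add_right, measure_preimage_add_right]
  · rw [hset, Asym.projBody_translate]

end Vale.Agent.P237.Facets
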