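import Vale.Agent.P074.PL

/-!
The logarithm of the volume of `{x | ∀ i, x ⬝ᵥ u i ≤ h i}` is concave in positive support numbers,
so it has a supergradient; the consequences used for the projection body are drawn here.
-/

namespace Vale.Agent.P237.Facets

open MeasureTheory Set Matrix
open scoped ENNReal Pointwise

variable {n N : ℕ}

/-- The set cut out by the halfspaces `x ⬝ᵥ u i ≤ h i`. -/
def poly (u : Fin N → Fin n → ℝ) (h : Fin N → ℝ) : Set (Fin n → ℝ) :=
  {x | ∀ i, x ⬝ᵥ u i ≤ h i}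

/-- Its volume, as a real number. -/
noncomputable def vol (u : Fin N → Fin n → ℝ) (h : Fin N → ℝ) : ℝ := (volume (poly u h)).toReal

lemma poly_mono (u : Fin N → Fin n → ℝ) {h h' : Fin N → ℝ} (hh : ∀ i, h i ≤ h' i) :
    poly u h ⊆ poly u h' := fun x hx i => (hx i).trans (hh i)

lemma poly_smul (u : Fin N → Fin n → ℝ) (h : Fin N → ℝ) {a : ℝ} (ha : 0 < a) :
    poly u (a • h) = a • poly u h := by
  ext x
  rw [mem_smul_set_iff_inv_smul_mem₀ ha.ne']
  simp only [poly, mem_ofPred_eq, smul_dotProduct, smul_eq_mul, Pi.smul_apply]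
  exact forall_congr' fun i => (inv_mul_le_iff₀ ha).symm

lemma isClosed_poly (u : Fin N → Fin n → ℝ) (h : Fin N → ℝ) : IsClosed (poly u h) := by
  simp only [poly, setOf_forall]
  exact isClosed_iInter fun i => isClosed_le (by fun_prop) continuous_const

lemma convex_poly (u : Fin N → Fin n → ℝ) (h : Fin N → ℝ) : Convex ℝ (poly u h) := by
  intro x hx y hy a b ha hb hab i
  simp only [add_dotProduct, smul_dotProduct, smul_eq_mul]
  calc a * (x ⬝ᵥ u i) + b * (y ⬝ᵥ u i) ≤ a * h i + b * h i :=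
        add_le_add (mul_le_mul_of_nonneg_left (hx i) ha) (mul_le_mul_of_nonneg_left (hy i) hb)
    _ = h i := by rw [← add_mul, hab, one_mul]

lemma isCompact_poly {u : Fin N → Fin n → ℝ} (hb : IsCompact (poly u 1)) (h : Fin N → ℝ) :
    IsCompact (poly u h) := by
  set M : ℝ := 1 + ∑ i, |h i| with hM
  have hM0 : 0 < M := by rw [hM]; positivity
  refine (hb.smul M).of_isClosed_subset (isClosed_poly u h) ?_
  rw [← poly_smul u 1 hM0]
  refine poly_mono u fun i => ?_
  simp only [Pi.smul_apply, Pi.one_apply, smul_eq_mul, mul_one, hM]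
  linarith [le_abs_self (h i),
    Finset.single_le_sum (f := fun i => |h i|) (fun i _ => abs_nonneg _) (Finset.mem_univ i)]

lemma vol_pos {u : Fin N → Fin n → ℝ} (hb : IsCompact (poly u 1)) {h : Fin N → ℝ}
    (hh : ∀ i, 0 < h i) : 0 < vol u h := by
  have ho : IsOpen {x : Fin n → ℝ | ∀ i, x ⬝ᵥ u i < h i} := by
    simp only [setOf_forall]
    exact isOpen_iInter_of_finite fun i => isOpen_lt (by fun_prop) continuous_const
  have hne : {x : Fin n → ℝ | ∀ i, x ⬝ᵥ u i < h i}.Nonempty := ⟨0, fun i => by simp [hh i]⟩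
  refine ENNReal.toReal_pos ?_ (isCompact_poly hb h).measure_ne_top
  exact ((ho.measure_pos volume hne).trans_le (measure_mono fun x hx i => (hx i).le)).ne'

lemma vol_mono {u : Fin N → Fin n → ℝ} (hb : IsCompact (poly u 1)) {h h' : Fin N → ℝ}
    (hh : ∀ i, h i ≤ h' i) : vol u h ≤ vol u h' :=
  ENNReal.toReal_mono (isCompact_poly hb h').measure_ne_top (measure_mono (poly_mono u hh))

lemma vol_smul (u : Fin N → Fin n → ℝ) (h : Fin N → ℝ) {a : ℝ} (ha : 0 < a) :
    vol u (a • h) = a ^ n * vol u h := by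
  rw [vol, vol, poly_smul u h ha, Measure.addHaar_smul_of_nonneg volume ha.le,
    ENNReal.toReal_mul, ENNReal.toReal_ofReal (by positivity), Module.finrank_fin_fun]

lemma vol_midpoint {u : Fin N → Fin n → ℝ} (hb : IsCompact (poly u 1)) (h h' : Fin N → ℝ) :
    vol u h * vol u h' ≤ vol u ((1 / 2 : ℝ) • (h + h')) ^ 2 := by
  have hm : ∀ k, MeasurableSet (poly u k) := fun k => (isClosed_poly u k).measurableSet
  have key := Vale.Agent.P074.pl_pi n (f := (poly u h).indicator 1) (g := (poly u h').indicator 1)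
    (h := (poly u ((1 / 2 : ℝ) • (h + h'))).indicator 1) (measurable_one.indicator (hm _))
    (measurable_one.indicator (hm _)) (measurable_one.indicator (hm _)) fun x y => by
      by_cases hx : x ∈ poly u h
      · by_cases hy : y ∈ poly u h'
        · have hz : (1 / 2 : ℝ) • (x + y) ∈ poly u ((1 / 2 : ℝ) • (h + h')) := fun i => by
            simp only [smul_dotProduct, add_dotProduct, smul_eq_mul, Pi.smul_apply, Pi.add_apply]
            linarith [hx i, hy i]
          rw [indicator_of_mem hx, indicator_of_mem hy, indicator_of_mem hz]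
          simp
        · simp [indicator_of_notMem hy]
      · simp [indicator_of_notMem hx]
  simp only [lintegral_indicator_one (hm _)] at key
  have h2 := ENNReal.toReal_mono
    (ENNReal.pow_ne_top (isCompact_poly hb _).measure_ne_top) key
  simpa [vol, ENNReal.toReal_mul, ENNReal.toReal_pow] using h2

/-- A continuous midpoint concave function on an interval lies above its chord. -/
lemma chord_le {φ : ℝ → ℝ} (hc : ContinuousOn φ (Icc 0 1))
    (hm : ∀ a ∈ Icc (0 : ℝ) 1, ∀ b ∈ Icc (0 : ℝ) 1, φ a + φ b ≤ 2 * φ ((a + b) / 2))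
    {t : ℝ} (ht : t ∈ Icc (0 : ℝ) 1) : (1 - t) * φ 0 + t * φ 1 ≤ φ t := by
  set ψ : ℝ → ℝ := fun s => φ s - (1 - s) * φ 0 - s * φ 1 with hψ
  have hψc : ContinuousOn ψ (Icc 0 1) := by rw [hψ]; fun_prop
  obtain ⟨z, hz, hzmin⟩ := isCompact_Icc.exists_isMinOn ⟨0, by simp⟩ hψc
  by_contra hlt
  have hneg : ψ z < 0 := lt_of_le_of_lt (hzmin ht) (by simp only [hψ]; linarith)
  set E := Icc (0 : ℝ) 1 ∩ ψ ⁻¹' {ψ z} with hE
  have hEc : IsCompact E :=
    isCompact_Icc.of_isClosed_subset (hψc.preimage_isClosed_of_isClosed isClosed_Icc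
      isClosed_singleton) inter_subset_left
  obtain ⟨s, hs, hsmin⟩ := hEc.exists_isMinOn ⟨z, hz, rfl⟩ continuousOn_id
  have hval : ψ s = ψ z := hs.2
  have hs01 : s ∈ Ioo (0 : ℝ) 1 := by
    refine ⟨lt_of_le_of_ne hs.1.1 fun h => ?_, lt_of_le_of_ne hs.1.2 fun h => ?_⟩
    · rw [← h] at hval; simp [hψ] at hval; linarith
    · rw [h] at hval; simp [hψ] at hval; linarith
  set ε := min s (1 - s) with hε
  have hεpos : 0 < ε := lt_min hs01.1 (by linarith [hs01.2])
  have ha : s - ε ∈ Icc (0 : ℝ) 1 :=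
    ⟨by linarith [min_le_left s (1 - s)], by linarith [hs01.2]⟩
  have hb : s + ε ∈ Icc (0 : ℝ) 1 :=
    ⟨by linarith [hs01.1], by linarith [min_le_right s (1 - s)]⟩
  have hmid := hm _ ha _ hb
  rw [show (s - ε + (s + ε)) / 2 = s by ring] at hmid
  have h1 : ψ z ≤ ψ (s + ε) := hzmin hb
  have h2 : ψ (s - ε) ≠ ψ z := fun h => by
    have : s ≤ s - ε := hsmin ⟨ha, h⟩
    linarith
  have h3 : ψ z < ψ (s - ε) := lt_of_le_of_ne (hzmin ha) (Ne.symm h2)
  have e : ψ (s - ε) + ψ (s + ε) = φ (s - ε) + φ (s + ε) - 2 * ((1 - s) * φ 0 + s * φ 1) := by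
    simp only [hψ]; ring
  have e2 : ψ s = φ s - ((1 - s) * φ 0 + s * φ 1) := by simp only [hψ]; ring
  linarith

/-- The positive orthant. -/
def pos (N : ℕ) : Set (Fin N → ℝ) := {h | ∀ i, 0 < h i}

lemma isOpen_pos (N : ℕ) : IsOpen (pos N) := by
  simp only [pos, setOf_forall]
  exact isOpen_iInter_of_finite fun i => isOpen_lt continuous_const (continuous_apply i)

lemma convex_pos (N : ℕ) : Convex ℝ (pos N) := by
  intro x hx y hy a b ha hb hab i
  simp only [Pi.add_apply, Pi.smul_apply, smul_eq_mul]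
  exact convex_Ioi (0 : ℝ) (hx i) (hy i) ha hb hab

lemma continuousOn_log_vol {u : Fin N → Fin n → ℝ} (hb : IsCompact (poly u 1)) :
    ContinuousOn (fun h => Real.log (vol u h)) (pos N) := by
  intro h hh
  refine ContinuousAt.continuousWithinAt (Metric.continuousAt_iff'.mpr fun ε hε => ?_)
  set κ := Real.exp (ε / (2 * ((n : ℝ) + 1))) with hκ
  have hκ1 : 1 < κ := Real.one_lt_exp_iff.mpr (by positivity)
  have hev : ∀ᶠ k in nhds h, ∀ i, κ⁻¹ * h i < k i ∧ k i < κ * h i := by
    refine Filter.eventually_all.mpr fun i => ?_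
    have h1 : κ⁻¹ * h i < h i := mul_lt_of_lt_one_left (hh i) (inv_lt_one_of_one_lt₀ hκ1)
    have h2 : h i < κ * h i := lt_mul_of_one_lt_left (hh i) hκ1
    exact ((continuous_apply i).continuousAt.eventually (isOpen_Ioo.mem_nhds ⟨h1, h2⟩))
  filter_upwards [hev] with k hk
  have hκ0 : 0 < κ := by linarith
  have hkpos : k ∈ pos N := fun i => lt_trans (mul_pos (inv_pos.mpr hκ0) (hh i)) (hk i).1
  have hlo := vol_mono hb (h := κ⁻¹ • h) (h' := k) fun i => (hk i).1.le
  have hhi := vol_mono hb (h := k) (h' := κ • h) fun i => (hk i).2.le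
  rw [vol_smul u h (inv_pos.mpr hκ0)] at hlo
  rw [vol_smul u h hκ0] at hhi
  have hv := vol_pos hb hh
  have h3 := Real.log_le_log (mul_pos (by positivity) hv) hlo
  have h4 := Real.log_le_log (vol_pos hb hkpos) hhi
  rw [Real.log_mul (by positivity) hv.ne', Real.log_pow, Real.log_inv, hκ, Real.log_exp] at h3
  rw [Real.log_mul (by positivity) hv.ne', Real.log_pow, hκ, Real.log_exp] at h4
  have h5 : (n : ℝ) * (ε / (2 * ((n : ℝ) + 1))) < ε := by
    rw [mul_div_assoc', div_lt_iff₀ (by positivity)]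
    nlinarith [Nat.cast_nonneg (α := ℝ) n]
  rw [Real.dist_eq, abs_lt]
  constructor <;> nlinarith

lemma log_vol_chord {u : Fin N → Fin n → ℝ} (hb : IsCompact (poly u 1)) {h k : Fin N → ℝ}
    (hh : h ∈ pos N) (hk : k ∈ pos N) {t : ℝ} (ht : t ∈ Icc (0 : ℝ) 1) :
    (1 - t) * Real.log (vol u h) + t * Real.log (vol u k) ≤
      Real.log (vol u ((1 - t) • h + t • k)) := by
  have hmem : ∀ s ∈ Icc (0 : ℝ) 1, (1 - s) • h + s • k ∈ pos N := fun s hs =>
    convex_pos N hh hk (by linarith [hs.2]) hs.1 (by ring)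
  have key := chord_le (φ := fun s => Real.log (vol u ((1 - s) • h + s • k)))
    ((continuousOn_log_vol hb).comp (by fun_prop) hmem) (fun a ha b hb' => ?_) ht
  · simpa using key
  · have hp := vol_midpoint hb ((1 - a) • h + a • k) ((1 - b) • h + b • k)
    rw [show (1 / 2 : ℝ) • ((1 - a) • h + a • k + ((1 - b) • h + b • k)) =
      (1 - (a + b) / 2) • h + ((a + b) / 2) • k by module] at hp
    have p1 := vol_pos hb (hmem a ha)
    have p2 := vol_pos hb (hmem b hb')
    have h3 := Real.log_le_log (mul_pos p1 p2) hp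
    rwa [Real.log_mul p1.ne' p2.ne', Real.log_pow] at h3

/-- A supergradient of the logarithm of the volume. -/
lemma exists_supergradient {u : Fin N → Fin n → ℝ} (hb : IsCompact (poly u 1)) {h : Fin N → ℝ}
    (hh : h ∈ pos N) : ∃ g : Fin N → ℝ, ∀ k ∈ pos N,
      Real.log (vol u k) ≤ Real.log (vol u h) + g ⬝ᵥ (k - h) := by
  set S : Set ((Fin N → ℝ) × ℝ) := {p | p.1 ∈ pos N ∧ p.2 < Real.log (vol u p.1)} with hS
  have hSo : IsOpen S := by
    have h1 : ContinuousOn (fun p : (Fin N → ℝ) × ℝ => Real.log (vol u p.1) - p.2)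
        (Prod.fst ⁻¹' pos N) :=
      ((continuousOn_log_vol hb).comp continuous_fst.continuousOn fun p hp => hp).sub
        continuous_snd.continuousOn
    have h2 := h1.isOpen_inter_preimage ((isOpen_pos N).preimage continuous_fst) (isOpen_Ioi (a := 0))
    convert h2 using 1
    ext p
    simp [hS, sub_pos]
  have hSc : Convex ℝ S := by
    intro p hp q hq a b ha hb' hab
    obtain rfl : a = 1 - b := by linarith
    refine ⟨convex_pos N hp.1 hq.1 ha hb' hab, ?_⟩
    have h1 := log_vol_chord hb hp.1 hq.1 (t := b) ⟨hb', by linarith⟩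
    simp only [Prod.snd_add, Prod.smul_snd, smul_eq_mul, Prod.fst_add, Prod.smul_fst]
    rcases eq_or_lt_of_le hb' with h0 | h0
    · subst h0; simpa using hp.2
    · nlinarith [mul_lt_mul_of_pos_left hq.2 h0, mul_le_mul_of_nonneg_left hp.2.le ha]
  obtain ⟨f, hf⟩ := geometric_hahn_banach_open_point hSc hSo
    (show (h, Real.log (vol u h)) ∉ S from fun hmem => lt_irrefl _ hmem.2)
  set β := f (0, 1) with hβ
  have hsplit : ∀ k r, f (k, r) = ∑ i, k i * f (Pi.single i 1, 0) + r * β := by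
    intro k r
    have e : (k, r) = ∑ i, k i • ((Pi.single i 1 : Fin N → ℝ), (0 : ℝ)) + r • (0, 1) := by
      refine Prod.ext ?_ ?_
      · simp only [Prod.fst_add, Prod.fst_sum, Prod.smul_fst, smul_zero, add_zero]
        exact pi_eq_sum_univ' k
      · simp [Prod.snd_sum]
    rw [e, map_add, map_sum, map_smul]
    simp only [map_smul, smul_eq_mul, hβ]
  have hβ0 : 0 < β := by
    have := hf (h, Real.log (vol u h) - 1) ⟨hh, by simp⟩
    rw [hsplit, hsplit] at this
    linarith
  refine ⟨fun i => -(f (Pi.single i 1, 0) / β), fun k hk => ?_⟩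
  by_contra hlt
  push Not at hlt
  have h1 := hf (k, Real.log (vol u h) + (fun i => -(f (Pi.single i 1, 0) / β)) ⬝ᵥ (k - h))
    ⟨hk, hlt⟩
  rw [hsplit, hsplit] at h1
  have h2 : ((fun i => -(f (Pi.single i 1, 0) / β)) ⬝ᵥ (k - h)) * β =
      ∑ i, h i * f (Pi.single i 1, 0) - ∑ i, k i * f (Pi.single i 1, 0) := by
    rw [dotProduct, Finset.sum_mul, ← Finset.sum_sub_distrib]
    refine Finset.sum_congr rfl fun i _ => ?_
    simp only [Pi.sub_apply]
    field_simp
    ring
  nlinarith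

/-- The properties of a supergradient that are used. -/
structure IsSupergrad (u : Fin N → Fin n → ℝ) (h g : Fin N → ℝ) : Prop where
  le : ∀ k ∈ pos N, Real.log (vol u k) ≤ Real.log (vol u h) + g ⬝ᵥ (k - h)

lemma IsSupergrad.nonneg {u : Fin N → Fin n → ℝ} (hb : IsCompact (poly u 1)) {h g : Fin N → ℝ}
    (hh : h ∈ pos N) (hg : IsSupergrad u h g) (i : Fin N) : 0 ≤ g i := by
  classical
  have hk : h + Pi.single i 1 ∈ pos N := fun j => by
    rcases eq_or_ne j i with e | e
    · subst e; simp; linarith [hh j]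
    · simp [e, hh j]
  have h1 := hg.le _ hk
  have h2 := Real.log_le_log (vol_pos hb hh) (vol_mono hb (h := h) (h' := h + Pi.single i 1)
    fun j => by rcases eq_or_ne j i with e | e <;> simp [e])
  rw [add_sub_cancel_left, dotProduct_single, mul_one] at h1
  linarith

lemma IsSupergrad.dot_self {u : Fin N → Fin n → ℝ} (hb : IsCompact (poly u 1)) {h g : Fin N → ℝ}
    (hh : h ∈ pos N) (hg : IsSupergrad u h g) : g ⬝ᵥ h = n := by
  have key : ∀ a : ℝ, 0 < a → (n : ℝ) * Real.log a ≤ (a - 1) * (g ⬝ᵥ h) := by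
    intro a ha
    have h1 := hg.le (a • h) fun i => mul_pos ha (hh i)
    rw [vol_smul u h ha, Real.log_mul (by positivity) (vol_pos hb hh).ne', Real.log_pow,
      dotProduct_sub, dotProduct_smul, smul_eq_mul] at h1
    linarith
  have hlow : ∀ a : ℝ, 1 < a → (n : ℝ) / a ≤ g ⬝ᵥ h := by
    intro a ha
    have h2 := Real.one_sub_inv_le_log_of_pos (show (0 : ℝ) < a by linarith)
    have h3 : (n : ℝ) * (1 - a⁻¹) ≤ (a - 1) * (g ⬝ᵥ h) :=
      (mul_le_mul_of_nonneg_left h2 (Nat.cast_nonneg n)).trans (key a (by linarith))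
    have e : (n : ℝ) * (1 - a⁻¹) = (a - 1) * (n / a) := by field_simp
    rw [e] at h3
    exact le_of_mul_le_mul_left h3 (by linarith)
  have hup : ∀ a : ℝ, 0 < a → a < 1 → g ⬝ᵥ h ≤ (n : ℝ) / a := by
    intro a ha ha1
    have h2 := Real.one_sub_inv_le_log_of_pos ha
    have h3 : (n : ℝ) * (1 - a⁻¹) ≤ (a - 1) * (g ⬝ᵥ h) :=
      (mul_le_mul_of_nonneg_left h2 (Nat.cast_nonneg n)).trans (key a ha)
    have e : (n : ℝ) * (1 - a⁻¹) = (a - 1) * (n / a) := by field_simp
    rw [e] at h3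
    nlinarith
  have hc : ContinuousAt (fun a : ℝ => (n : ℝ) / a) 1 := by fun_prop (disch := norm_num)
  have hl : Filter.Tendsto (fun a : ℝ => (n : ℝ) / a) (nhds 1) (nhds n) := by simpa using hc.tendsto
  refine le_antisymm ?_ ?_
  · exact ge_of_tendsto (hl.mono_left (nhdsWithin_le_nhds (s := Iio 1))) (Filter.mem_of_superset
      (Ioo_mem_nhdsLT (show (0 : ℝ) < 1 by norm_num)) fun a ha => hup a ha.1 ha.2)
  · exact le_of_tendsto (hl.mono_left (nhdsWithin_le_nhds (s := Ioi 1))) (Filter.mem_of_superset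
      self_mem_nhdsWithin fun a ha => hlow a ha)

/-- The Minkowski-type inequality given by a supergradient. -/
lemma IsSupergrad.minkowski {u : Fin N → Fin n → ℝ} (hb : IsCompact (poly u 1)) (hn : 1 ≤ n)
    {h g q : Fin N → ℝ} (hh : h ∈ pos N) (hg : IsSupergrad u h g) (hq : q ∈ pos N) :
    0 < g ⬝ᵥ q ∧ (n : ℝ) ^ n * vol u q ≤ (g ⬝ᵥ q) ^ n * vol u h := by
  have hv := vol_pos hb hh
  have hw := vol_pos hb hq
  have hn0 : (0 : ℝ) < n := by exact_mod_cast hn
  have key : ∀ a : ℝ, 0 < a →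
      (n : ℝ) * Real.log a + Real.log (vol u q) ≤ Real.log (vol u h) + a * (g ⬝ᵥ q) - n := by
    intro a ha
    have h1 := hg.le (a • q) fun i => mul_pos ha (hq i)
    rw [vol_smul u q ha, Real.log_mul (by positivity) hw.ne', Real.log_pow, dotProduct_sub,
      dotProduct_smul, smul_eq_mul, hg.dot_self hb hh] at h1
    linarith
  have hpos : 0 < g ⬝ᵥ q := by
    by_contra hle
    push Not at hle
    set a := Real.exp ((Real.log (vol u h) - Real.log (vol u q)) / n) with ha
    have h1 := key a (Real.exp_pos _)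
    rw [ha, Real.log_exp, mul_div_cancel₀ _ hn0.ne', ← ha] at h1
    nlinarith [mul_nonpos_of_nonneg_of_nonpos (Real.exp_pos ((Real.log (vol u h) -
      Real.log (vol u q)) / n)).le hle]
  refine ⟨hpos, ?_⟩
  have h1 := key (n / (g ⬝ᵥ q)) (div_pos hn0 hpos)
  rw [div_mul_cancel₀ _ hpos.ne', add_sub_cancel_right, Real.log_div hn0.ne' hpos.ne'] at h1
  have h2 : Real.log ((n : ℝ) ^ n * vol u q) ≤ Real.log ((g ⬝ᵥ q) ^ n * vol u h) := by
    rw [Real.log_mul (by positivity) hw.ne', Real.log_mul (by positivity) hv.ne', Real.log_pow,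
      Real.log_pow]
    linarith
  exact (Real.log_le_log_iff (by positivity) (by positivity)).mp h2

end Vale.Agent.P237.Facets
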