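import Mathlib
import Vale.Agent.P237.Main

/-!
Helper for P237: a shift by `s` costs a convex body at most `s` times the volume of its shadow.
-/

namespace Vale.Agent.P237.Facets

open MeasureTheory Set Vale.Agent.P237
open scoped ENNReal Pointwise RealInnerProductSpace

theorem slice_shift {W : Type*} [NormedAddCommGroup W] [NormedSpace ℝ W] [MeasureSpace W]
    [BorelSpace W] [SecondCountableTopology W] [SigmaFinite (volume : Measure W)]
    {K : Set (ℝ × W)} (hK : Convex ℝ K) (cK : IsCompact K) {s : ℝ} (hs : 0 < s) :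
    volume K ≤ volume (K ∩ {p | p + (s, 0) ∈ K}) + ENNReal.ofReal s * volume (Prod.snd '' K) := by
  have hm : MeasurableSet (K ∩ {p : ℝ × W | p + (s, 0) ∈ K}) :=
    cK.isClosed.measurableSet.inter (cK.isClosed.preimage (by fun_prop)).measurableSet
  have hP : MeasurableSet (Prod.snd '' K) := (cK.image continuous_snd).isClosed.measurableSet
  rw [Measure.volume_eq_prod, Measure.prod_apply_symm hm,
    Measure.prod_apply_symm cK.isClosed.measurableSet,
    ← lintegral_indicator_one hP, ← lintegral_const_mul' _ _ ENNReal.ofReal_ne_top,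
    ← lintegral_add_right _ ((measurable_one.indicator hP).const_mul _)]
  refine lintegral_mono fun w => ?_
  set S := (fun t => (t, w)) ⁻¹' K with hS
  by_cases hw : w ∈ Prod.snd '' K
  · rw [indicator_of_mem hw, Pi.one_apply, mul_one]
    obtain ⟨z, hz, rfl⟩ := hw
    have hne : S.Nonempty := ⟨z.1, by simp [hS, hz]⟩
    have hc : IsCompact S :=
      (cK.image continuous_fst).of_isClosed_subset (cK.isClosed.preimage (by fun_prop))
        fun x hx => ⟨(x, z.2), hx, rfl⟩
    have hconv : Convex ℝ S := by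
      intro p hp q hq c d hc hd hcd
      have h := hK hp hq hc hd hcd
      simpa [hS, ← add_smul, hcd] using h
    have h1 : S = Icc (sInf S) (sSup S) :=
      eq_Icc_of_connected_compact ⟨hne, hconv.isPreconnected⟩ hc
    set l := sInf S
    set r := sSup S
    have e : (fun t => (t, z.2)) ⁻¹' (K ∩ {p | p + (s, 0) ∈ K}) = Icc l (r - s) := by
      ext t
      have h2 : ∀ t, (t, z.2) ∈ K ↔ t ∈ Icc l r := fun t => by rw [← h1]; rfl
      simp only [mem_preimage, mem_inter_iff, mem_ofPred_eq, Prod.mk_add_mk, add_zero, h2, mem_Icc]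
      constructor
      · rintro ⟨⟨a, -⟩, -, b⟩; exact ⟨a, by linarith⟩
      · rintro ⟨a, b⟩; exact ⟨⟨a, by linarith⟩, by linarith, by linarith⟩
    rw [h1, e, Real.volume_Icc, Real.volume_Icc]
    calc ENNReal.ofReal (r - l) = ENNReal.ofReal ((r - s - l) + s) := by ring_nf
      _ ≤ ENNReal.ofReal (r - s - l) + ENNReal.ofReal s := ENNReal.ofReal_add_le
  · have e : S = ∅ := eq_empty_of_forall_notMem fun x hx => hw ⟨(x, w), hx, rfl⟩
    rw [e, measure_empty]
    exact zero_le

variable {E : Type*} [NormedAddCommGroup E] [InnerProductSpace ℝ E] [FiniteDimensional ℝ E]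
  [MeasurableSpace E] [BorelSpace E]

/-- A shift by `s` in the direction `v` loses at most `s` times the shadow. -/
theorem volume_le_inter_shift {K : Set E} (hK : Convex ℝ K) (cK : IsCompact K) {v : E}
    (hv : ‖v‖ = 1) {s : ℝ} (hs : 0 < s) :
    volume K ≤ volume (K ∩ {x | x + s • v ∈ K}) + ENNReal.ofReal s * shadow K v := by
  set W := (ℝ ∙ v)ᗮ with hW
  set Ψ : WithLp 2 (ℝ × W) ≃ₗᵢ[ℝ] E :=
    (LinearIsometryEquiv.withLpProdCongr 2 (LinearIsometryEquiv.toSpanUnitSingleton v hv)
      (LinearIsometryEquiv.refl ℝ W)).trans (ℝ ∙ v).orthogonalDecomposition.symm with hΨ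
  set e : ℝ × W ≃ᵐ E :=
    (MeasurableEquiv.toLp 2 (ℝ × W)).trans Ψ.toHomeomorph.toMeasurableEquiv
  have he : MeasurePreserving e volume volume :=
    (LinearIsometryEquiv.measurePreserving Ψ).comp (WithLp.volume_preserving_toLp ℝ W)
  have happ : ∀ p : ℝ × W, e p = p.1 • v + (p.2 : E) := by
    intro p
    simp [e, hΨ, LinearIsometryEquiv.withLpProdCongr]
    rfl
  have hl : IsLinearMap ℝ e := by
    constructor <;> intros <;> simp only [happ, Prod.fst_add, Prod.snd_add, Prod.smul_fst,
      Prod.smul_snd, Submodule.coe_add, Submodule.coe_smul, smul_eq_mul, add_smul, mul_smul,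
      smul_add]
    abel
  have hproj : ∀ p : ℝ × W, W.orthogonalProjectionOnto (e p) = p.2 := by
    intro p
    rw [happ, map_add, map_smul,
      (Submodule.orthogonalProjectionOnto_eq_zero_iff (K := W)).mpr ?_, smul_zero, zero_add,
      Submodule.orthogonalProjectionOnto_mem_subspace_eq_self]
    rw [hW, Submodule.orthogonal_orthogonal]
    exact Submodule.mem_span_singleton_self v
  have cK' : IsCompact (e ⁻¹' K) := by
    have hc : Continuous e.symm :=
      (WithLp.prod_continuous_ofLp 2 ℝ W).comp Ψ.symm.continuous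
    have : e ⁻¹' K = e.symm '' K := by
      ext x; exact ⟨fun h => ⟨e x, h, e.symm_apply_apply x⟩, fun ⟨y, hy, h⟩ => by
        simp [← h, hy]⟩
    rw [this]; exact cK.image hc
  have h := slice_shift (hK.is_linear_preimage hl) cK' hs
  have hshift : e ⁻¹' K ∩ {p | p + (s, 0) ∈ e ⁻¹' K} = e ⁻¹' (K ∩ {x | x + s • v ∈ K}) := by
    ext p
    simp only [mem_inter_iff, mem_preimage, mem_ofPred_eq, hl.map_add, happ (s, 0)]
    simp
  have hsnd : Prod.snd '' (e ⁻¹' K) = W.orthogonalProjectionOnto '' K := by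
    ext w
    constructor
    · rintro ⟨p, hp, rfl⟩; exact ⟨e p, hp, hproj p⟩
    · rintro ⟨k, hk, rfl⟩
      exact ⟨e.symm k, by simpa using hk, by rw [← hproj (e.symm k), e.apply_symm_apply]⟩
  rwa [hshift, he.measure_preimage_equiv, he.measure_preimage_equiv, hsnd] at h

end Vale.Agent.P237.Facets
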