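import Mathlib

/-!
A lower bound for the volume of a zonotope: the segments `c i • [-u i, u i]` with all `u i` of length
at most one span a volume of at least `2 ^ n * det (∑ c i • u i uᵢᵀ)`.
-/

namespace Vale.Agent.P237.Facets

open MeasureTheory Set Matrix
open scoped ENNReal

/-- The sum of the segments `c i • [-u i, u i]`. -/
def zono {n N : ℕ} (c : Fin N → ℝ) (u : Fin N → Fin n → ℝ) : Set (Fin n → ℝ) :=
  (fun s : Fin N → ℝ => ∑ i, s i • u i) '' Set.pi Set.univ fun i => Icc (-c i) (c i)

/-- The second-moment matrix `∑ c i • u i uᵢᵀ`. -/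
def gram {n N : ℕ} (c : Fin N → ℝ) (u : Fin N → Fin n → ℝ) : Matrix (Fin n) (Fin n) ℝ :=
  ∑ i, c i • vecMulVec (u i) (u i)

lemma isCompact_zono {n N : ℕ} (c : Fin N → ℝ) (u : Fin N → Fin n → ℝ) :
    IsCompact (zono c u) :=
  (isCompact_univ_pi fun _ => isCompact_Icc).image (by fun_prop)

lemma convex_zono {n N : ℕ} (c : Fin N → ℝ) (u : Fin N → Fin n → ℝ) : Convex ℝ (zono c u) :=
  (convex_pi fun i _ => convex_Icc _ _).linear_image (Fintype.linearCombination ℝ u)

lemma slab_lower {W : Type*} [NormedAddCommGroup W] [NormedSpace ℝ W] [MeasureSpace W]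
    [BorelSpace W] [SecondCountableTopology W] [SigmaFinite (volume : Measure W)]
    {K B : Set (ℝ × W)} (hK : Convex ℝ K) (cK : IsCompact K) (cB : IsCompact B) {l : ℝ}
    (hl : 0 ≤ l) (hB : ∀ k ∈ K, ∀ t ∈ Icc (-l) l, (k.1 + t, k.2) ∈ B) :
    volume K + ENNReal.ofReal (2 * l) * volume (Prod.snd '' K) ≤ volume B := by
  have hP : MeasurableSet (Prod.snd '' K) := (cK.image continuous_snd).isClosed.measurableSet
  rw [Measure.volume_eq_prod, Measure.prod_apply_symm cB.isClosed.measurableSet,
    Measure.prod_apply_symm cK.isClosed.measurableSet, ← lintegral_indicator_one hP,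
    ← lintegral_const_mul _ (measurable_one.indicator hP),
    ← lintegral_add_right _ ((measurable_one.indicator hP).const_mul _)]
  refine lintegral_mono fun w => ?_
  set S := (fun r => (r, w)) ⁻¹' K with hS
  by_cases hw : w ∈ Prod.snd '' K
  · rw [indicator_of_mem hw, Pi.one_apply, mul_one]
    obtain ⟨z, hz, rfl⟩ := hw
    have hne : S.Nonempty := ⟨z.1, by simp [hS, hz]⟩
    have hc : IsCompact S :=
      (cK.image continuous_fst).of_isClosed_subset (cK.isClosed.preimage (by fun_prop))
        fun x hx => ⟨(x, z.2), hx, rfl⟩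
    have hconv : Convex ℝ S := by
      intro a ha b hb c d hc hd hcd
      have h := hK ha hb hc hd hcd
      simpa [hS, ← add_smul, hcd] using h
    have h1 : S = Icc (sInf S) (sSup S) :=
      eq_Icc_of_connected_compact ⟨hne, hconv.isPreconnected⟩ hc
    set p := sInf S
    set q := sSup S
    have hpq : p ≤ q := nonempty_Icc.mp (h1 ▸ hne)
    rw [h1, Real.volume_Icc, ← ENNReal.ofReal_add (by linarith) (by linarith),
      show q - p + 2 * l = (q + l) - (p - l) by ring, ← Real.volume_Icc]
    refine measure_mono fun x hx => ?_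
    set k := max p (min q x) with hk
    have hkS : k ∈ S := h1 ▸ ⟨le_max_left _ _, max_le hpq (min_le_left _ _)⟩
    have h := hB (k, z.2) hkS (x - k) (by
      constructor
      · rcases max_choice p (min q x) with h | h <;> rw [← hk] at h <;> rw [h]
        · linarith [hx.1]
        · linarith [min_le_right q x]
      · rcases min_choice q x with h | h <;>
          linarith [le_max_right p (min q x), hx.2, h])
    simpa using h
  · rw [indicator_of_notMem hw, mul_zero, add_zero]
    refine measure_mono fun x hx => ?_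
    simpa using hB _ hx 0 ⟨by linarith, hl⟩

lemma gram_cons {n N : ℕ} (c : Fin (N + 1) → ℝ) (u : Fin (N + 1) → Fin n → ℝ) :
    gram c u = c 0 • vecMulVec (u 0) (u 0) + gram (fun i => c i.succ) (fun i => u i.succ) := by
  simp [gram, Fin.sum_univ_succ]

lemma gram_posSemidef {n N : ℕ} {c : Fin N → ℝ} (hc : ∀ i, 0 ≤ c i) (u : Fin N → Fin n → ℝ) :
    (gram c u).PosSemidef := by
  refine Matrix.posSemidef_sum _ fun i _ => (Matrix.PosSemidef.smul ?_ (hc i))
  simpa using Matrix.posSemidef_vecMulVec_self_star (u i)

lemma zono_image {n m N : ℕ} (c : Fin N → ℝ) (u : Fin N → Fin n → ℝ)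
    (L : (Fin n → ℝ) →ₗ[ℝ] (Fin m → ℝ)) : L '' zono c u = zono c fun i => L (u i) := by
  simp only [zono, Set.image_image, map_sum, map_smul]

lemma exists_reflection {n : ℕ} (v : Fin (n + 1) → ℝ) {r : ℝ} (hr : r ^ 2 = v ⬝ᵥ v) :
    ∃ O : Matrix (Fin (n + 1)) (Fin (n + 1)) ℝ,
      Oᵀ = O ∧ O * O = 1 ∧ O *ᵥ v = Pi.single 0 r := by
  set w : Fin (n + 1) → ℝ := v - Pi.single 0 r with hw
  by_cases h0 : w = 0
  · exact ⟨1, by simp, by simp, by rw [Matrix.one_mulVec]; exact sub_eq_zero.mp h0⟩
  have hww : w ⬝ᵥ w ≠ 0 := fun h => h0 (dotProduct_self_eq_zero.mp h)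
  refine ⟨1 - (2 / (w ⬝ᵥ w)) • vecMulVec w w, by simp [transpose_vecMulVec], ?_, ?_⟩
  · simp only [Matrix.sub_mul, Matrix.mul_sub, Matrix.one_mul, Matrix.mul_one, Matrix.smul_mul,
      Matrix.mul_smul, vecMulVec_mul_vecMulVec, smul_smul, vecMulVec_smul]
    rw [div_mul_cancel₀ 2 hww]
    module
  · rw [Matrix.sub_mulVec, Matrix.one_mulVec, Matrix.smul_mulVec, vecMulVec_mulVec,
      op_smul_eq_smul, smul_smul]
    have h2 : w ⬝ᵥ w = 2 * (w ⬝ᵥ v) := by
      simp [hw, sub_dotProduct, dotProduct_sub]
      linarith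
    have h3 : 2 / (w ⬝ᵥ w) * (w ⬝ᵥ v) = 1 := by
      rw [div_mul_eq_mul_div, ← h2, div_self hww]
    rw [h3, one_smul, hw]
    abel

lemma det_add_corner {n : ℕ} (M : Matrix (Fin (n + 1)) (Fin (n + 1)) ℝ) (a : ℝ) :
    (Matrix.single 0 0 a + M).det = M.det + a * (M.submatrix Fin.succ Fin.succ).det := by
  have hs : ∀ j : Fin (n + 1), (Matrix.single (0 : Fin (n + 1)) 0 a + M).submatrix Fin.succ
      j.succAbove = M.submatrix Fin.succ j.succAbove := fun j => by
    ext p q
    simp [Matrix.single, (Fin.succ_ne_zero p).symm]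
  rw [Matrix.det_succ_row_zero, Matrix.det_succ_row_zero M, Fin.sum_univ_succ, Fin.sum_univ_succ]
  simp only [hs]
  simp [Matrix.single, (Fin.succ_ne_zero _).symm]
  ring

theorem zono_volume_ge : ∀ (n N : ℕ) (c : Fin N → ℝ) (u : Fin N → Fin n → ℝ),
    (∀ i, 0 ≤ c i) → (∀ i, u i ⬝ᵥ u i ≤ 1) →
      ENNReal.ofReal (2 ^ n * (gram c u).det) ≤ volume (zono c u) := by
  intro n
  induction n with
  | zero =>
    intro N c u hc hu
    have : zono c u = univ := by
      refine eq_univ_of_forall fun x => ⟨0, fun i _ => ⟨by simp [hc i], hc i⟩, ?_⟩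
      exact Subsingleton.elim _ _
    rw [this, Matrix.det_isEmpty, volume_pi, Measure.pi_univ]
    simp
  | succ n ihn =>
    intro N
    induction N with
    | zero =>
      intro c u _ _
      simp [gram]
    | succ N ihN =>
      intro c u hc hu
      set r : ℝ := Real.sqrt (u 0 ⬝ᵥ u 0) with hr
      have hr0 : 0 ≤ r := Real.sqrt_nonneg _
      have hr2 : r ^ 2 = u 0 ⬝ᵥ u 0 := Real.sq_sqrt (Finset.sum_nonneg fun _ _ => mul_self_nonneg _)
      have hr1 : r ≤ 1 := by rw [hr, Real.sqrt_le_one]; exact hu 0
      obtain ⟨O, hOt, hOO, hOv⟩ := exists_reflection (u 0) hr2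
      have hOd : |O.det| = 1 := by
        have h := congrArg Matrix.det hOO
        rw [Matrix.det_mul, Matrix.det_one, ← abs_mul_abs_self] at h
        nlinarith [abs_nonneg O.det]
      let u' : Fin (N + 1) → Fin (n + 1) → ℝ := fun i => O *ᵥ u i
      have hu' : ∀ i, u' i ⬝ᵥ u' i ≤ 1 := fun i => by
        simp only [u']
        rw [dotProduct_mulVec, ← Matrix.mulVec_transpose, Matrix.mulVec_mulVec, hOt, hOO,
          Matrix.one_mulVec]
        exact hu i
      have hvol : volume (zono c u') = volume (zono c u) := by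
        have h := zono_image c u (Matrix.toLin' O)
        simp only [Matrix.toLin'_apply] at h
        rw [show zono c u' = Matrix.toLin' O '' zono c u from h.symm,
          Measure.addHaar_image_linearMap, LinearMap.det_toLin', hOd]
        simp
      have hgram : (gram c u').det = (gram c u).det := by
        have h : gram c u' = O * gram c u * O := by
          simp only [gram, u', Matrix.mul_sum, Matrix.sum_mul, Matrix.mul_smul, Matrix.smul_mul,
            mul_vecMulVec, vecMulVec_mul, ← Matrix.mulVec_transpose, hOt]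
        have h2 := congrArg Matrix.det hOO
        rw [Matrix.det_mul, Matrix.det_one] at h2
        rw [h, Matrix.det_mul, Matrix.det_mul]
        linear_combination (gram c u).det * h2
      rw [← hvol, ← hgram]
      set d : Fin N → ℝ := fun i => c i.succ
      set v : Fin N → Fin (n + 1) → ℝ := fun i => u' i.succ
      set t : Fin N → Fin n → ℝ := fun i k => v i k.succ
      have hM : gram c u' = Matrix.single 0 0 (c 0 * r ^ 2) + gram d v := by
        rw [gram_cons c u']
        congr 1
        have h0 : u' 0 = Pi.single 0 r := hOv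
        ext p q
        rw [h0]
        rcases eq_or_ne p 0 with hp | hp <;> rcases eq_or_ne q 0 with hq | hq <;>
          simp [Matrix.single, vecMulVec_apply, hp, hq, eq_comm (a := (0 : Fin (n + 1))), sq]
      have hsub : (gram d v).submatrix Fin.succ Fin.succ = gram d t := by
        ext p q
        simp [gram, Matrix.sum_apply, vecMulVec_apply, t]
      rw [hM, det_add_corner, hsub]
      -- split off the first coordinate
      let e : (Fin (n + 1) → ℝ) ≃ᵐ ℝ × (Fin n → ℝ) :=
        MeasurableEquiv.piFinSuccAbove (fun _ => ℝ) 0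
      have he : MeasurePreserving e volume volume :=
        volume_preserving_piFinSuccAbove (fun _ => ℝ) 0
      let P : (Fin (n + 1) → ℝ) →ₗ[ℝ] ℝ × (Fin n → ℝ) :=
        (LinearMap.proj 0).prod (LinearMap.funLeft ℝ ℝ Fin.succ)
      have heP : ∀ x, e x = P x := fun x => by
        simp [e, P, LinearMap.funLeft_apply, Fin.insertNthEquiv, Fin.removeNth, Function.comp_def]
        rfl
      set A := e '' zono d v with hA
      set B := e '' zono c u' with hB
      have hAP : A = P '' zono d v := image_congr fun x _ => heP x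
      have hBP : B = P '' zono c u' := image_congr fun x _ => heP x
      have hPc : Continuous P := P.continuous_of_finiteDimensional
      have hkey := slab_lower (K := A) (B := B) (l := c 0 * r)
        (hAP ▸ (convex_zono d v).linear_image P) (hAP ▸ (isCompact_zono d v).image hPc)
        (hBP ▸ (isCompact_zono c u').image hPc) (mul_nonneg (hc 0) hr0) (by
          intro k hk a ha
          rw [hAP] at hk
          obtain ⟨_, ⟨s, hs, rfl⟩, rfl⟩ := hk
          rw [hBP]
          have hs' : ∃ s0 ∈ Icc (-c 0) (c 0), s0 * r = a := by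
            rcases eq_or_lt_of_le hr0 with h | h
            · exact ⟨0, ⟨by simp [hc 0], hc 0⟩, by
                have := ha.1; have := ha.2; rw [← h] at *; simp at *; linarith⟩
            · refine ⟨a / r, ⟨?_, ?_⟩, div_mul_cancel₀ a h.ne'⟩
              · rw [le_div_iff₀ h]; linarith [ha.1]
              · rw [div_le_iff₀ h]; linarith [ha.2]
          obtain ⟨s0, hs0, hsa⟩ := hs'
          refine ⟨∑ i, Fin.cons (α := fun _ => ℝ) s0 s i • u' i,
            ⟨Fin.cons s0 s, fun i _ => ?_, rfl⟩, ?_⟩
          · refine Fin.cases ?_ (fun j => ?_) i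
            · simpa using hs0
            · simpa [d] using hs j (mem_univ j)
          · rw [Fin.sum_univ_succ]
            simp only [Fin.cons_zero, Fin.cons_succ, map_add, map_smul]
            have h0 : u' 0 = Pi.single 0 r := hOv
            ext <;> simp [P, h0, v, LinearMap.funLeft_apply, Fin.succ_ne_zero, hsa, add_comm])
      rw [hA, hB] at hkey
      rw [e.image_eq_preimage_symm, e.image_eq_preimage_symm, he.symm.measure_preimage_equiv,
        he.symm.measure_preimage_equiv, ← e.image_eq_preimage_symm] at hkey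
      have hsnd : Prod.snd '' (e '' zono d v) = zono d t := by
        rw [image_image]
        rw [show (fun x => (e x).2) = (LinearMap.funLeft ℝ ℝ Fin.succ :
            (Fin (n + 1) → ℝ) →ₗ[ℝ] Fin n → ℝ) from funext fun x => by rw [heP]; rfl]
        rw [zono_image]
        rfl
      rw [hsnd] at hkey
      have h1 := ihN d v (fun i => hc i.succ) fun i => hu' i.succ
      have h2 := ihn N d t (fun i => hc i.succ) fun i => by
        refine le_trans ?_ (hu' i.succ)
        simp only [dotProduct, Fin.sum_univ_succ (f := fun k => u' i.succ k * u' i.succ k), t, v]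
        exact le_add_of_nonneg_left (mul_self_nonneg _)
      have hm0 : 0 ≤ (gram d t).det := (gram_posSemidef (fun i => hc i.succ) t).det_nonneg
      have hcr : 0 ≤ c 0 * r := mul_nonneg (hc 0) hr0
      have hr' : c 0 * r ^ 2 ≤ c 0 * r := by
        rw [sq]; exact mul_le_mul_of_nonneg_left (by nlinarith) (hc 0)
      calc ENNReal.ofReal (2 ^ (n + 1) * ((gram d v).det + c 0 * r ^ 2 * (gram d t).det))
          ≤ ENNReal.ofReal (2 ^ (n + 1) * (gram d v).det + 2 * (c 0 * r) * (2 ^ n * (gram d t).det)) := by
            refine ENNReal.ofReal_le_ofReal ?_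
            have := mul_le_mul_of_nonneg_right hr' hm0
            rw [pow_succ]
            nlinarith [pow_pos (show (0 : ℝ) < 2 by norm_num) n]
        _ ≤ ENNReal.ofReal (2 ^ (n + 1) * (gram d v).det)
              + ENNReal.ofReal (2 * (c 0 * r)) * ENNReal.ofReal (2 ^ n * (gram d t).det) := by
            rw [← ENNReal.ofReal_mul (by positivity)]
            exact ENNReal.ofReal_add_le
        _ ≤ volume (zono d v) + ENNReal.ofReal (2 * (c 0 * r)) * volume (zono d t) :=
            add_le_add h1 (mul_le_mul_right h2 _)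
        _ ≤ _ := hkey

end Vale.Agent.P237.Facets
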