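import Vale.Agent.P237.Frusta.Class
import Vale.Agent.P237.Facets.Zonotope
import Vale.Agent.P237.Facets.Concave
import Vale.Agent.P237.Facets.Shift

/-!
A polytope's projection body contains the zonotope of a supergradient of the log volume; the
resulting lower bound for its volume.
-/

namespace Vale.Agent.P237.Facets

open MeasureTheory Set Matrix Vale.Agent.P237 Vale.Agent.P237.Frusta
open scoped ENNReal RealInnerProductSpace

variable {n N : ℕ}

/-- Euclidean length in coordinates. -/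
noncomputable def len (v : Fin n → ℝ) : ℝ := √(v ⬝ᵥ v)

lemma len_pos {v : Fin n → ℝ} (h : v ≠ 0) : 0 < len v :=
  Real.sqrt_pos.mpr (lt_of_le_of_ne (Finset.sum_nonneg fun _ _ => mul_self_nonneg _)
    fun e => h (dotProduct_self_eq_zero.mp e.symm))

lemma len_sq (v : Fin n → ℝ) : len v * len v = v ⬝ᵥ v :=
  Real.mul_self_sqrt (Finset.sum_nonneg fun _ _ => mul_self_nonneg _)

lemma inner_toLp (x : Fin n → ℝ) (v : EuclideanSpace ℝ (Fin n)) :
    ⟪(WithLp.toLp 2 x : EuclideanSpace ℝ (Fin n)), v⟫ = x ⬝ᵥ v.ofLp := by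
  simp [PiLp.inner_apply, dotProduct, mul_comm]

lemma mem_euclidean {K : Set (Fin n → ℝ)} {x : EuclideanSpace ℝ (Fin n)} :
    x ∈ euclidean K ↔ x.ofLp ∈ K :=
  ⟨fun ⟨y, hy, e⟩ => by rw [← e]; exact hy, fun h => ⟨_, h, rfl⟩⟩

lemma shadow_neg (K : Set (EuclideanSpace ℝ (Fin n))) (v : EuclideanSpace ℝ (Fin n)) :
    shadow K (-v) = shadow K v := by
  have h : (ℝ ∙ (-v)) = (ℝ ∙ v) := by
    rw [← Submodule.span_neg, Set.neg_singleton, neg_neg]
  exact congrArg (fun W : Submodule ℝ (EuclideanSpace ℝ (Fin n)) =>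
    volume (Wᗮ.orthogonalProjectionOnto '' K)) h

lemma isCompact_euclidean {K : Set (Fin n → ℝ)} (hK : IsCompact K) : IsCompact (euclidean K) :=
  hK.image (PiLp.continuous_toLp 2 _)

lemma convex_euclidean {K : Set (Fin n → ℝ)} (hK : Convex ℝ K) : Convex ℝ (euclidean K) :=
  hK.linear_image (WithLp.linearEquiv 2 ℝ (Fin n → ℝ)).symm.toLinearMap

/-- Directional derivative bound: the supergradient pairs with `(θ·u)⁺` below the shadow. -/
lemma grad_le_shadow {u : Fin N → Fin n → ℝ} (hb : IsCompact (poly u 1)) {h g : Fin N → ℝ}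
    (hh : h ∈ pos N) (hg : IsSupergrad u h g) {θ : EuclideanSpace ℝ (Fin n)} (hθ : ‖θ‖ = 1) :
    vol u h * (g ⬝ᵥ fun i => max (θ.ofLp ⬝ᵥ u i) 0) ≤ (shadow (euclidean (poly u h)) θ).toReal := by
  set d : Fin N → ℝ := fun i => max (θ.ofLp ⬝ᵥ u i) 0 with hd
  set A := g ⬝ᵥ d with hA
  set p := (shadow (euclidean (poly u h)) θ).toReal with hp
  have hA0 : 0 ≤ A := Finset.sum_nonneg fun i _ =>
    mul_nonneg (hg.nonneg hb hh i) (le_max_right _ _)
  have hV := vol_pos hb hh
  have hK := isCompact_euclidean (isCompact_poly hb h)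
  have hfin : shadow (euclidean (poly u h)) θ ≠ ⊤ :=
    (hK.image (ContinuousLinearMap.continuous _)).measure_ne_top
  have hp0 : 0 ≤ p := ENNReal.toReal_nonneg
  have key : ∀ᶠ s in nhdsWithin (0 : ℝ) (Ioi 0), vol u h * A ≤ p * (1 + s * A) := by
    have hev : ∀ᶠ s in nhdsWithin (0 : ℝ) (Ioi 0), ∀ i, s * d i < h i := by
      refine Filter.eventually_all.mpr fun i => nhdsWithin_le_nhds ?_
      exact ((continuous_id.mul continuous_const).tendsto' 0 0 (by simp)).eventually
        (Iio_mem_nhds (hh i))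
    filter_upwards [hev, self_mem_nhdsWithin] with s hs hs0
    have hs0 : 0 < s := hs0
    set k : Fin N → ℝ := h - s • d with hk
    have hkpos : k ∈ pos N := fun i => by
      simp only [hk, Pi.sub_apply, Pi.smul_apply, smul_eq_mul]; linarith [hs i]
    have hsub : euclidean (poly u h) ∩ {x | x + s • θ ∈ euclidean (poly u h)} ⊆
        euclidean (poly u k) := by
      rintro x ⟨h1, h2⟩
      rw [mem_euclidean] at h1
      simp only [mem_ofPred_eq, mem_euclidean] at h2
      rw [mem_euclidean]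
      intro i
      have a := h1 i
      have b := h2 i
      simp only [WithLp.ofLp_add, WithLp.ofLp_smul, add_dotProduct, smul_dotProduct,
        smul_eq_mul] at b
      simp only [hk, hd, Pi.sub_apply, Pi.smul_apply, smul_eq_mul]
      rcases max_choice (θ.ofLp ⬝ᵥ u i) 0 with e | e <;> rw [e] <;> linarith
    have h3 := (volume_le_inter_shift (convex_euclidean (convex_poly u h)) hK hθ hs0).trans
      (add_le_add_left (measure_mono hsub) _)
    rw [volume_euclidean, volume_euclidean] at h3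
    have h4 : vol u h ≤ vol u k + s * p := by
      have hne : ENNReal.ofReal s * shadow (euclidean (poly u h)) θ ≠ ⊤ :=
        ENNReal.mul_ne_top ENNReal.ofReal_ne_top hfin
      have h5 := ENNReal.toReal_mono
        (ENNReal.add_ne_top.mpr ⟨(isCompact_poly hb k).measure_ne_top, hne⟩) h3
      rwa [ENNReal.toReal_add (isCompact_poly hb k).measure_ne_top hne, ENNReal.toReal_mul,
        ENNReal.toReal_ofReal hs0.le] at h5
    have h6 := hg.le k hkpos
    rw [show k - h = -(s • d) by rw [hk]; abel, dotProduct_neg, dotProduct_smul, smul_eq_mul,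
      ← hA] at h6
    have h7 : vol u k ≤ vol u h * Real.exp (-(s * A)) := by
      have := Real.exp_le_exp.mpr h6
      rwa [Real.exp_log (vol_pos hb hkpos), Real.exp_add, Real.exp_log hV] at this
    have h8 : Real.exp (-(s * A)) * (1 + s * A) ≤ 1 := by
      have := Real.add_one_le_exp (s * A)
      calc Real.exp (-(s * A)) * (1 + s * A) ≤ Real.exp (-(s * A)) * Real.exp (s * A) :=
            mul_le_mul_of_nonneg_left (by linarith) (Real.exp_pos _).le
        _ = 1 := by rw [← Real.exp_add]; simp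
    have h9 : 0 ≤ 1 + s * A := by positivity
    have h10 : vol u h * (1 + s * A) ≤ vol u h + s * p * (1 + s * A) := by
      nlinarith [mul_le_mul_of_nonneg_right (h4.trans (add_le_add h7 le_rfl)) h9,
        mul_le_mul_of_nonneg_left h8 hV.le]
    nlinarith
  have hl : Filter.Tendsto (fun s : ℝ => p * (1 + s * A)) (nhdsWithin 0 (Ioi 0)) (nhds p) := by
    have hc : Continuous fun s : ℝ => p * (1 + s * A) := by fun_prop
    exact (hc.tendsto' 0 p (by simp)).mono_left nhdsWithin_le_nhds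
  exact ge_of_tendsto hl key

/-- The slab body of a tuple of vectors. -/
def slabs (v : Fin N → Fin n → ℝ) : Set (Fin n → ℝ) := {x | ∀ i, |x ⬝ᵥ v i| ≤ 1}

/-- Minkowski's inequality against the slabs of a linear image. -/
lemma minkowski_linear {u : Fin N → Fin n → ℝ} (hn : 1 ≤ n) (hu : ∀ i, u i ≠ 0)
    (hb : IsCompact (poly u 1)) {h g : Fin N → ℝ} (hh : h ∈ pos N) (hg : IsSupergrad u h g)
    {B : ℝ} (hB : ∀ v : Fin N → Fin n → ℝ, (∀ i, v i ⬝ᵥ v i ≤ 1) →
      ENNReal.ofReal B ≤ volume (slabs v))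
    {T : Matrix (Fin n) (Fin n) ℝ} (hT : T.det ≠ 0) :
    0 < ∑ i, g i * len (T *ᵥ u i) ∧
      (n : ℝ) ^ n * (|T.det| * B) ≤ (∑ i, g i * len (T *ᵥ u i)) ^ n * vol u h := by
  have hTu : ∀ i, T *ᵥ u i ≠ 0 := fun i e =>
    hu i (Matrix.eq_zero_of_mulVec_eq_zero hT e)
  set q : Fin N → ℝ := fun i => len (T *ᵥ u i) with hq
  obtain ⟨hpos, hle⟩ := hg.minkowski hb hn hh (q := q) fun i => len_pos (hTu i)
  refine ⟨hpos, le_trans (mul_le_mul_of_nonneg_left ?_ (by positivity)) hle⟩
  set v : Fin N → Fin n → ℝ := fun i => (len (T *ᵥ u i))⁻¹ • (T *ᵥ u i) with hv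
  have hv1 : ∀ i, v i ⬝ᵥ v i ≤ 1 := fun i => by
    simp only [hv, smul_dotProduct, dotProduct_smul, smul_eq_mul, ← len_sq]
    exact le_of_eq (by field_simp [(len_pos (hTu i)).ne'])
  have hsub : Matrix.toLin' Tᵀ '' slabs v ⊆ poly u q := by
    rintro _ ⟨y, hy, rfl⟩ i
    rw [Matrix.toLin'_apply, Matrix.mulVec_transpose, ← Matrix.dotProduct_mulVec]
    have h2 := (abs_le.mp (hy i)).2
    simp only [hv, dotProduct_smul, smul_eq_mul] at h2
    rw [inv_mul_le_iff₀ (len_pos (hTu i)), mul_one] at h2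
    exact h2
  have h1 := measure_mono (μ := volume) hsub
  rw [Measure.addHaar_image_linearMap, LinearMap.det_toLin', Matrix.det_transpose] at h1
  have h2 := ENNReal.toReal_mono (isCompact_poly hb q).measure_ne_top
    ((mul_le_mul_right (hB v hv1) _).trans h1)
  rw [ENNReal.toReal_mul, ENNReal.toReal_ofReal (abs_nonneg _), ENNReal.toReal_ofReal'] at h2
  exact (mul_le_mul_of_nonneg_left (le_max_left B 0) (abs_nonneg _)).trans h2

/-- The normals with positive weight span. -/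
lemma weights_span {u : Fin N → Fin n → ℝ} (hn : 1 ≤ n) (hu : ∀ i, u i ≠ 0)
    (hb : IsCompact (poly u 1)) {h g : Fin N → ℝ} (hh : h ∈ pos N) (hg : IsSupergrad u h g)
    {B : ℝ} (hB0 : 0 < B) (hB : ∀ v : Fin N → Fin n → ℝ, (∀ i, v i ⬝ᵥ v i ≤ 1) →
      ENNReal.ofReal B ≤ volume (slabs v))
    (θ : Fin n → ℝ) (hθ : θ ≠ 0) : ∃ i, 0 < g i ∧ θ ⬝ᵥ u i ≠ 0 := by
  by_contra hcon
  push Not at hcon
  set F := ∑ i, g i * len (u i) with hF
  set R := F ^ n * vol u h / ((n : ℝ) ^ n * B) with hR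
  have hθ2 : 0 < θ ⬝ᵥ θ := by rw [← len_sq]; exact mul_pos (len_pos hθ) (len_pos hθ)
  set M := (|R| + 1) / (θ ⬝ᵥ θ) with hM
  set T : Matrix (Fin n) (Fin n) ℝ := 1 + vecMulVec (M • θ) θ with hT
  have hdet : T.det = 1 + (|R| + 1) := by
    rw [hT, Matrix.vecMulVec_eq Unit, Matrix.det_one_add_replicateCol_mul_replicateRow,
      dotProduct_smul, smul_eq_mul, hM, div_mul_cancel₀ _ hθ2.ne']
  have hTne : T.det ≠ 0 := by rw [hdet]; positivity
  obtain ⟨-, hle⟩ := minkowski_linear hn hu hb hh hg hB hTne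
  have hsum : ∑ i, g i * len (T *ᵥ u i) = F := by
    refine Finset.sum_congr rfl fun i _ => ?_
    rcases eq_or_lt_of_le (hg.nonneg hb hh i) with e | e
    · rw [← e]; simp
    · congr 2
      rw [hT, Matrix.add_mulVec, Matrix.one_mulVec, vecMulVec_mulVec, hcon i e]
      simp
  rw [hsum, hdet, abs_of_pos (by positivity)] at hle
  have hn0 : (0 : ℝ) < (n : ℝ) ^ n := by
    have : 0 < n := hn
    positivity
  have e : F ^ n * vol u h = R * ((n : ℝ) ^ n * B) := by rw [hR]; field_simp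
  nlinarith [mul_pos hn0 hB0, le_abs_self R]

/-- The position in which the weights are isotropic. -/
def HasPosition (n N : ℕ) : Prop :=
  ∀ (g : Fin N → ℝ), (∀ i, 0 ≤ g i) → ∀ u : Fin N → Fin n → ℝ, (∀ i, u i ≠ 0) →
    (∀ θ : Fin n → ℝ, θ ≠ 0 → ∃ i, 0 < g i ∧ θ ⬝ᵥ u i ≠ 0) →
    ∃ T : Matrix (Fin n) (Fin n) ℝ, T.det ≠ 0 ∧
      ∑ i, (g i / √((T *ᵥ u i) ⬝ᵥ (T *ᵥ u i))) • vecMulVec (T *ᵥ u i) (T *ᵥ u i)
        = ((∑ i, g i * √((T *ᵥ u i) ⬝ᵥ (T *ᵥ u i))) / n) • (1 : Matrix (Fin n) (Fin n) ℝ)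

/-- The projection body of a polytope is at least `B` times the `(n-1)`st power of its volume. -/
theorem proj_lower (hpos : HasPosition n N) {u : Fin N → Fin n → ℝ} (hn : 1 ≤ n)
    (hu : ∀ i, u i ≠ 0) (hb : IsCompact (poly u 1)) {h : Fin N → ℝ} (hh : h ∈ pos N)
    {B : ℝ} (hB0 : 0 < B) (hB : ∀ v : Fin N → Fin n → ℝ, (∀ i, v i ⬝ᵥ v i ≤ 1) →
      ENNReal.ofReal B ≤ volume (slabs v)) :
    ENNReal.ofReal B * volume (euclidean (poly u h)) ^ (n - 1) ≤
      volume (projBody (euclidean (poly u h))) := by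
  obtain ⟨g, hg'⟩ := exists_supergradient hb hh
  have hg : IsSupergrad u h g := ⟨hg'⟩
  have hg0 := hg.nonneg hb hh
  set V := vol u h with hVdef
  have hV : 0 < V := vol_pos hb hh
  -- the zonotope lies in the projection body
  set Z := zono (fun i => V * g i / 2) u with hZ
  have hsub : euclidean Z ⊆ projBody (euclidean (poly u h)) := by
    rintro _ ⟨_, ⟨s, hs, rfl⟩, rfl⟩ θ hθ
    have h1 := grad_le_shadow hb hh hg hθ
    have h2 := grad_le_shadow hb hh hg (θ := -θ) (by rw [norm_neg]; exact hθ)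
    rw [shadow_neg] at h2
    rw [inner_toLp, sum_dotProduct]
    calc ∑ i, (s i • u i) ⬝ᵥ θ.ofLp ≤ ∑ i, V * g i / 2 *
          (max (θ.ofLp ⬝ᵥ u i) 0 + max ((-θ).ofLp ⬝ᵥ u i) 0) := by
          refine Finset.sum_le_sum fun i _ => ?_
          have hsi := hs i (mem_univ i)
          rw [smul_dotProduct, smul_eq_mul, dotProduct_comm, WithLp.ofLp_neg, neg_dotProduct,
            max_zero_add_max_neg_zero_eq_abs_self]
          calc s i * (θ.ofLp ⬝ᵥ u i) ≤ |s i * (θ.ofLp ⬝ᵥ u i)| := le_abs_self _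
            _ ≤ V * g i / 2 * |θ.ofLp ⬝ᵥ u i| := by
                rw [abs_mul]
                exact mul_le_mul_of_nonneg_right (abs_le.mpr hsi) (abs_nonneg _)
      _ = (V * (g ⬝ᵥ fun i => max (θ.ofLp ⬝ᵥ u i) 0) +
            V * (g ⬝ᵥ fun i => max ((-θ).ofLp ⬝ᵥ u i) 0)) / 2 := by
          simp only [dotProduct, Finset.mul_sum, ← Finset.sum_add_distrib, Finset.sum_div]
          exact Finset.sum_congr rfl fun i _ => by ring
      _ ≤ _ := by linarith
  obtain ⟨T, hT, hiso⟩ := hpos g hg0 u hu (weights_span hn hu hb hh hg hB0 hB)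
  have hTu : ∀ i, T *ᵥ u i ≠ 0 := fun i e => hu i (Matrix.eq_zero_of_mulVec_eq_zero hT e)
  obtain ⟨hF0, hmink⟩ := minkowski_linear hn hu hb hh hg hB hT
  set F := ∑ i, g i * len (T *ᵥ u i) with hF
  set v : Fin N → Fin n → ℝ := fun i => (len (T *ᵥ u i))⁻¹ • (T *ᵥ u i) with hv
  set c : Fin N → ℝ := fun i => V * g i / 2 * len (T *ᵥ u i) with hc
  have hc0 : ∀ i, 0 ≤ c i := fun i =>
    mul_nonneg (by have := hg0 i; positivity) (len_pos (hTu i)).le
  have hv1 : ∀ i, v i ⬝ᵥ v i ≤ 1 := fun i => by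
    simp only [hv, smul_dotProduct, dotProduct_smul, smul_eq_mul, ← len_sq]
    exact le_of_eq (by field_simp [(len_pos (hTu i)).ne'])
  have hgram : gram c v = (V * F / (2 * n)) • (1 : Matrix (Fin n) (Fin n) ℝ) := by
    have e : gram c v = (V / 2) • ∑ i, (g i / √((T *ᵥ u i) ⬝ᵥ (T *ᵥ u i))) •
        vecMulVec (T *ᵥ u i) (T *ᵥ u i) := by
      rw [gram, Finset.smul_sum]
      refine Finset.sum_congr rfl fun i _ => ?_
      simp only [hv, hc, vecMulVec_smul, smul_vecMulVec, smul_smul]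
      congr 1
      have := (len_pos (hTu i)).ne'
      change _ = V / 2 * (g i / len (T *ᵥ u i))
      field_simp
    rw [e, hiso, smul_smul]
    congr 1
    change V / 2 * (F / n) = V * F / (2 * n)
    ring
  have himg : zono c v ⊆ Matrix.toLin' T '' Z := by
    rw [hZ, zono_image]
    rintro _ ⟨s, hs, rfl⟩
    refine ⟨fun i => s i / len (T *ᵥ u i), fun i _ => ?_, ?_⟩
    · have hl := len_pos (hTu i)
      obtain ⟨a, b⟩ := hs i (mem_univ i)
      constructor
      · rw [le_div_iff₀ hl]; simp only [hc] at a; linarith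
      · rw [div_le_iff₀ hl]; exact b
    · refine Finset.sum_congr rfl fun i _ => ?_
      simp [hv, smul_smul, Matrix.toLin'_apply, div_eq_mul_inv]
  have hz := (zono_volume_ge n N c v hc0 hv1).trans (measure_mono himg)
  rw [hgram, Matrix.det_smul, Matrix.det_one, mul_one, Fintype.card_fin, ← mul_pow,
    Measure.addHaar_image_linearMap, LinearMap.det_toLin'] at hz
  have hn0 : (0 : ℝ) < n := by exact_mod_cast hn
  have hkey : |T.det| * (B * V ^ (n - 1)) ≤ (2 * (V * F / (2 * n))) ^ n := by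
    have e : (2 * (V * F / (2 * n))) ^ n = V ^ (n - 1) * (F ^ n * V) / (n : ℝ) ^ n := by
      rw [show 2 * (V * F / (2 * (n : ℝ))) = V * F / n by ring, div_pow, mul_pow]
      congr 1
      rw [mul_left_comm, ← pow_succ, Nat.sub_add_cancel hn]
      ring
    rw [e, le_div_iff₀ (pow_pos hn0 n)]
    nlinarith [mul_le_mul_of_nonneg_left hmink (pow_nonneg hV.le (n - 1))]
  have hfin : ENNReal.ofReal B * volume (euclidean (poly u h)) ^ (n - 1) ≤ volume Z := by
    have hd : ENNReal.ofReal |T.det| ≠ 0 := by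
      rw [Ne, ENNReal.ofReal_eq_zero, not_le]; exact abs_pos.mpr hT
    refine (ENNReal.mul_le_mul_iff_right hd ENNReal.ofReal_ne_top).mp ?_
    rw [volume_euclidean, ← ENNReal.ofReal_toReal (isCompact_poly hb h).measure_ne_top,
      ← ENNReal.ofReal_pow ENNReal.toReal_nonneg, ← ENNReal.ofReal_mul hB0.le,
      ← ENNReal.ofReal_mul (abs_nonneg _)]
    exact (ENNReal.ofReal_le_ofReal hkey).trans hz
  exact hfin.trans ((volume_euclidean Z).ge.trans (measure_mono hsub))

end Vale.Agent.P237.Facets
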