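import Mathlib
import Vale.Agent.P237.Ball

/-!
Gaussian bound for the volume of an intersection of slabs, and the comparison of the ball
constants with it.
-/

namespace Vale.Agent.P237.Facets

open MeasureTheory Real Pointwise

lemma gauss_eq_prod {n : ℕ} (y : Fin n → ℝ) :
    exp (-(y ⬝ᵥ y) / 2) = ∏ k, exp (-(1 / 2) * y k ^ 2) := by
  rw [← Real.exp_sum, dotProduct, ← Finset.sum_neg_distrib, Finset.sum_div]
  congr 1
  exact Finset.sum_congr rfl fun k _ => by ring

lemma lintegral_gauss (n : ℕ) :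
    ∫⁻ y : Fin n → ℝ, ENNReal.ofReal (exp (-(y ⬝ᵥ y) / 2)) =
      ENNReal.ofReal (√(2 * π) ^ n) := by
  have hi : Integrable (fun y : Fin n → ℝ => exp (-(y ⬝ᵥ y) / 2)) := by
    simp_rw [gauss_eq_prod]
    exact Integrable.fintype_prod fun _ => integrable_exp_neg_mul_sq (by norm_num)
  rw [← ofReal_integral_eq_lintegral_ofReal hi
    (Filter.Eventually.of_forall fun y => (exp_pos _).le)]
  congr 1
  simp_rw [gauss_eq_prod]
  rw [integral_fintype_prod_volume_eq_pow fun t : ℝ => exp (-(1 / 2) * t ^ 2),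
    integral_gaussian, Fintype.card_fin]
  congr 2
  ring

lemma lintegral_tilt {n : ℕ} {t : ℝ} (v : Fin n → ℝ) (hv : v ⬝ᵥ v ≤ t ^ 2) :
    ∫⁻ y : Fin n → ℝ, ENNReal.ofReal (exp (-(y ⬝ᵥ y) / 2 + y ⬝ᵥ v - t ^ 2)) ≤
      ENNReal.ofReal (exp (-(t ^ 2 / 2))) * ENNReal.ofReal (√(2 * π) ^ n) := by
  have h : ∀ y : Fin n → ℝ, exp (-(y ⬝ᵥ y) / 2 + y ⬝ᵥ v - t ^ 2) ≤
      exp (-(t ^ 2 / 2)) * exp (-((y - v) ⬝ᵥ (y - v)) / 2) := by
    intro y
    rw [← exp_add, sub_dotProduct, dotProduct_sub, dotProduct_sub, dotProduct_comm v y]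
    refine exp_le_exp.2 ?_
    linarith
  refine (lintegral_mono fun y => ENNReal.ofReal_le_ofReal (h y)).trans ?_
  simp_rw [ENNReal.ofReal_mul (exp_pos _).le]
  rw [lintegral_const_mul' _ _ ENNReal.ofReal_ne_top,
    lintegral_sub_right_eq_self (fun y : Fin n → ℝ => ENNReal.ofReal (exp (-(y ⬝ᵥ y) / 2))) v,
    lintegral_gauss]

/-- An intersection of `N` slabs with unit normals has volume at least half that of a cube of
half-side about `(π / log (4 N)) ^ (1 / 2) / 2`. -/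
theorem slab_volume_ge {n N : ℕ} (hN : 1 ≤ N) (u : Fin N → Fin n → ℝ)
    (hu : ∀ i, u i ⬝ᵥ u i ≤ 1) :
    ENNReal.ofReal (√(π / Real.log (4 * N)) ^ n / 2) ≤
      volume {x : Fin n → ℝ | ∀ i, |x ⬝ᵥ u i| ≤ 1} := by
  set Q : Set (Fin n → ℝ) := {x | ∀ i, |x ⬝ᵥ u i| ≤ 1}
  have hN' : (1 : ℝ) ≤ N := by exact_mod_cast hN
  have hL : 0 < Real.log (4 * N) := Real.log_pos (by linarith)
  set t : ℝ := √(2 * Real.log (4 * N))
  have ht : 0 < t := Real.sqrt_pos.2 (by positivity)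
  have ht2 : t ^ 2 = 2 * Real.log (4 * N) := Real.sq_sqrt (by positivity)
  set Z : ENNReal := ENNReal.ofReal (√(2 * π) ^ n) with hZ
  have hQm : MeasurableSet (t • Q) := by
    refine MeasurableSet.const_smul_of_ne_zero ?_ ht.ne'
    have : Q = ⋂ i, {x : Fin n → ℝ | |x ⬝ᵥ u i| ≤ 1} := by ext x; simp [Q]
    rw [this]
    refine MeasurableSet.iInter fun i => measurableSet_le ?_ measurable_const
    simp only [dotProduct]
    fun_prop
  let f : Bool × Fin N → (Fin n → ℝ) → ENNReal := fun b y =>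
    ENNReal.ofReal (exp (-(y ⬝ᵥ y) / 2 + y ⬝ᵥ ((if b.1 then t else -t) • u b.2) - t ^ 2))
  have hpt : ∀ y, ENNReal.ofReal (exp (-(y ⬝ᵥ y) / 2)) ≤
      (t • Q).indicator 1 y + ∑ b, f b y := by
    intro y
    by_cases hy : y ∈ t • Q
    · rw [Set.indicator_of_mem hy]
      refine le_add_of_le_of_nonneg ?_ zero_le
      rw [Pi.one_apply, ENNReal.ofReal_le_one, exp_le_one_iff]
      have h0 : 0 ≤ y ⬝ᵥ y := Finset.sum_nonneg fun k _ => mul_self_nonneg _
      linarith
    · rw [Set.mem_smul_set_iff_inv_smul_mem₀ ht.ne'] at hy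
      simp only [Q, Set.mem_ofPred_eq, not_forall, not_le] at hy
      obtain ⟨i, hi⟩ := hy
      rw [smul_dotProduct, smul_eq_mul, abs_mul, abs_inv, abs_of_pos ht,
        ← div_eq_inv_mul, lt_div_iff₀ ht, one_mul] at hi
      refine le_add_of_nonneg_of_le zero_le ?_
      rcases lt_abs.1 hi with h | h
      · refine le_trans ?_ (Finset.single_le_sum (fun b _ => zero_le) (Finset.mem_univ (true, i)))
        refine ENNReal.ofReal_le_ofReal (exp_le_exp.2 ?_)
        simp only [dotProduct_smul, smul_eq_mul, if_true]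
        nlinarith
      · refine le_trans ?_ (Finset.single_le_sum (fun b _ => zero_le) (Finset.mem_univ (false, i)))
        refine ENNReal.ofReal_le_ofReal (exp_le_exp.2 ?_)
        simp only [dotProduct_smul, smul_eq_mul, Bool.false_eq_true, if_false]
        nlinarith
  have hfm : ∀ b, Measurable (f b) := by
    intro b
    simp only [f, dotProduct]
    fun_prop
  have hfb : ∀ b, ∫⁻ y, f b y ≤ ENNReal.ofReal (exp (-(t ^ 2 / 2))) * Z := by
    intro b
    refine lintegral_tilt _ ?_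
    rw [dotProduct_smul, smul_dotProduct, smul_eq_mul, smul_eq_mul, ← mul_assoc]
    rcases b.1 <;> simp only [Bool.false_eq_true, if_false, if_true] <;>
      nlinarith [hu b.2, sq_nonneg t]
  have hmain : Z ≤ volume (t • Q) + ENNReal.ofReal (√(2 * π) ^ n / 2) := by
    calc Z = ∫⁻ y : Fin n → ℝ, ENNReal.ofReal (exp (-(y ⬝ᵥ y) / 2)) := (lintegral_gauss n).symm
      _ ≤ ∫⁻ y, (t • Q).indicator 1 y + ∑ b, f b y := lintegral_mono hpt
      _ = volume (t • Q) + ∑ b, ∫⁻ y, f b y := by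
          rw [lintegral_add_left (measurable_one.indicator hQm),
            lintegral_finsetSum _ fun b _ => hfm b, lintegral_indicator_one hQm]
      _ ≤ volume (t • Q) + ∑ _b : Bool × Fin N, ENNReal.ofReal (exp (-(t ^ 2 / 2))) * Z := by
          gcongr with b
          exact hfb b
      _ = _ := by
          rw [Finset.sum_const, Finset.card_univ, Fintype.card_prod, Fintype.card_bool,
            Fintype.card_fin, hZ, ← ENNReal.ofReal_mul (exp_pos _).le, ← ENNReal.ofReal_nsmul,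
            nsmul_eq_mul, ht2, mul_div_cancel_left₀ _ (two_ne_zero' ℝ), Real.exp_neg,
            Real.exp_log (by linarith)]
          congr 2
          push_cast
          field_simp
          ring
  rw [Measure.addHaar_smul, abs_of_pos (pow_pos ht _)] at hmain
  simp only [Module.finrank_fintype_fun_eq_card, Fintype.card_fin] at hmain
  rcases eq_or_ne (volume Q) ⊤ with hv | hv
  · simp [hv]
  rw [← ENNReal.ofReal_toReal hv] at hmain ⊢
  rw [hZ, ← ENNReal.ofReal_mul (by positivity), ← ENNReal.ofReal_add (by positivity) (by positivity),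
    ENNReal.ofReal_le_ofReal_iff (by positivity)] at hmain
  refine ENNReal.ofReal_le_ofReal ?_
  have e : √(π / Real.log (4 * N)) = √(2 * π) / t := by
    rw [← Real.sqrt_div (by positivity)]
    congr 1
    field_simp
  rw [e, div_pow, div_div, div_le_iff₀ (by positivity)]
  nlinarith

lemma kappa_sq_le_stirling {n : ℕ} (hn : 2 ≤ n) :
    kappa n ^ 2 ≤ (2 * π * exp 1 / n) ^ n := by
  have hn' : (2 : ℝ) ≤ n := by exact_mod_cast hn
  set x : ℝ := (n : ℝ) / 2 + 1 / 2 with hx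
  have hx0 : 0 < x - 1 / 2 := by rw [hx]; linarith
  have hg1 := Gamma_pos_of_pos (show 0 < x by linarith)
  have hg2 := Gamma_pos_of_pos (show 0 < x + 1 / 2 by linarith)
  have hg0 := Gamma_pos_of_pos hx0
  have hc := Gamma_mul_add_mul_le_rpow_Gamma_mul_rpow_Gamma hx0
    (show 0 < x + 1 / 2 by linarith) (a := 1 / 2) (b := 1 / 2) (by norm_num) (by norm_num)
    (by norm_num)
  rw [show (1 : ℝ) / 2 * (x - 1 / 2) + 1 / 2 * (x + 1 / 2) = x by ring,
    ← Real.sqrt_eq_rpow, ← Real.sqrt_eq_rpow, ← Real.sqrt_mul hg0.le] at hc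
  have hsq : Gamma x ^ 2 ≤ Gamma (x - 1 / 2) * Gamma (x + 1 / 2) := by
    rw [← Real.sq_sqrt (mul_nonneg hg0.le hg2.le)]
    exact pow_le_pow_left₀ hg1.le hc 2
  have hrec : Gamma (x + 1 / 2) = (x - 1 / 2) * Gamma (x - 1 / 2) := by
    rw [← Gamma_add_one hx0.ne']; congr 1; ring
  have hmono : Gamma x ≤ Gamma (x + 1 / 2) := by
    refine le_of_pow_le_pow_left₀ two_ne_zero hg2.le (hsq.trans ?_)
    rw [sq]
    refine mul_le_mul_of_nonneg_right ?_ hg2.le
    rw [hrec]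
    exact le_mul_of_one_le_left hg0.le (by rw [hx]; linarith)
  have hdup := Real.Gamma_mul_Gamma_add_half x
  have h2x : 2 * x = (n : ℝ) + 1 := by rw [hx]; ring
  rw [h2x, Real.Gamma_nat_eq_factorial, show 1 - ((n : ℝ) + 1) = -(n : ℝ) by ring,
    Real.rpow_neg two_pos.le, Real.rpow_natCast] at hdup
  have hS := Stirling.le_factorial_stirling n
  have hpi := pi_gt_three
  have h1 : 1 ≤ √(2 * π * n) := Real.one_le_sqrt.2 (by nlinarith)
  have h2 : 1 ≤ √π := Real.one_le_sqrt.2 (by linarith)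
  have hB : (n / (2 * exp 1)) ^ n ≤ Gamma (x + 1 / 2) ^ 2 := by
    calc ((n : ℝ) / (2 * exp 1)) ^ n = ((2 : ℝ) ^ n)⁻¹ * (n / exp 1) ^ n := by
          rw [← inv_pow, ← mul_pow]; congr 1; field_simp
      _ ≤ ((2 : ℝ) ^ n)⁻¹ * n.factorial := by
          refine mul_le_mul_of_nonneg_left (le_trans ?_ hS) (by positivity)
          exact le_mul_of_one_le_left (by positivity) h1
      _ ≤ (n.factorial : ℝ) * ((2 : ℝ) ^ n)⁻¹ * √π := by
          rw [mul_comm]; exact le_mul_of_one_le_right (by positivity) h2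
      _ = Gamma x * Gamma (x + 1 / 2) := hdup.symm
      _ ≤ Gamma (x + 1 / 2) ^ 2 := by rw [sq]; exact mul_le_mul_of_nonneg_right hmono hg2.le
  rw [kappa, show (n : ℝ) / 2 + 1 = x + 1 / 2 by rw [hx]; ring, div_pow, ← pow_mul, mul_comm n 2,
    pow_mul, Real.sq_sqrt pi_pos.le, div_le_iff₀ (by positivity)]
  calc π ^ n = (2 * π * exp 1 / n) ^ n * (n / (2 * exp 1)) ^ n := by
        rw [← mul_pow]; congr 1; field_simp
    _ ≤ _ := mul_le_mul_of_nonneg_left hB (by positivity)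

/-- For `c < 1 / (2 e ^ 2)` and large `n` the ball constant beats the slab bound with `exp (c n)`
slabs. -/
theorem petty_const_lt {c : ℝ} (hc : c < 1 / (2 * Real.exp 1 ^ 2)) :
    ∃ n₀ : ℕ, ∀ n ≥ n₀, ∀ N : ℕ, 1 ≤ N → (N : ℝ) ≤ Real.exp (c * n) →
      kappa (n - 1) ^ n < kappa n ^ (n - 2) * (√(Real.pi / Real.log (4 * N)) ^ n / 2) := by
  set e := Real.exp 1
  have he : 0 < e := exp_pos 1
  obtain ⟨b, hb1, hb2⟩ : ∃ b : ℝ, max (2 * e ^ 2 * c) 0 < b ∧ b < 1 :=
    exists_between (max_lt (by rw [lt_div_iff₀ (by positivity)] at hc; linarith) one_pos)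
  have hb0 : 0 < b := (le_max_right _ _).trans_lt hb1
  set δ := b / (2 * e ^ 2) - c with hδ
  have hδ0 : 0 < δ := by
    rw [hδ, sub_pos, lt_div_iff₀ (by positivity)]
    linarith [le_max_left (2 * e ^ 2 * c) 0]
  obtain ⟨k, hk⟩ := exists_pow_lt_of_lt_one (show (0 : ℝ) < 1 / 4 by norm_num) hb2
  refine ⟨max (max 2 k) ⌈(2 * Real.log 4 + |c|) / δ⌉₊, fun n hn N hN hNc => ?_⟩
  simp only [ge_iff_le, max_le_iff] at hn
  obtain ⟨⟨hn2, hnk⟩, hnδ⟩ := hn
  have hn' : (2 : ℝ) ≤ n := by exact_mod_cast hn2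
  have hN' : (1 : ℝ) ≤ N := by exact_mod_cast hN
  set L := Real.log (4 * N) with hL
  have hL0 : 0 < L := Real.log_pos (by linarith)
  have hLle : L ≤ Real.log 4 + c * n := by
    rw [hL, Real.log_mul (by norm_num) (by linarith)]
    linarith [(Real.log_le_iff_le_exp (by linarith)).2 hNc]
  have hl4 : 0 ≤ Real.log 4 := Real.log_nonneg (by norm_num)
  have hquad : ((n : ℝ) + 1) * L ≤ b / (2 * e ^ 2) * n ^ 2 := by
    have h1 : 2 * Real.log 4 + |c| ≤ δ * n :=
      (div_le_iff₀' hδ0).1 ((Nat.le_ceil _).trans (by exact_mod_cast hnδ))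
    calc ((n : ℝ) + 1) * L ≤ ((n : ℝ) + 1) * (Real.log 4 + c * n) :=
          mul_le_mul_of_nonneg_left hLle (by linarith)
      _ ≤ c * n ^ 2 + (2 * Real.log 4 + |c|) * n := by
          nlinarith [mul_le_mul_of_nonneg_right (le_abs_self c) (Nat.cast_nonneg n : (0:ℝ) ≤ n)]
      _ ≤ c * n ^ 2 + δ * n * n := by gcongr
      _ = _ := by rw [hδ]; ring
  have hbase : ((n : ℝ) + 1) / (2 * π) * (2 * π * e / n) ^ 2 * (L / π) ≤ b := by
    calc ((n : ℝ) + 1) / (2 * π) * (2 * π * e / n) ^ 2 * (L / π)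
        = 2 * e ^ 2 / (n : ℝ) ^ 2 * (((n : ℝ) + 1) * L) := by field_simp
      _ ≤ 2 * e ^ 2 / (n : ℝ) ^ 2 * (b / (2 * e ^ 2) * n ^ 2) :=
          mul_le_mul_of_nonneg_left hquad (by positivity)
      _ = b := by field_simp
  have hbn : b ^ n < 1 / 4 := (pow_le_pow_of_le_one hb0.le hb2.le hnk).trans_lt hk
  have hk0 := kappa_pos n
  have h1 := kappa_sq_le (n - 1)
  rw [show n - 1 + 1 = n by omega, show ((n - 1 : ℕ) : ℝ) + 2 = (n : ℝ) + 1 by
    rw [Nat.cast_sub (by omega)]; push_cast; ring] at h1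
  have h2 : (((n : ℝ) + 1) / (2 * π)) ^ n * kappa n ^ 4 < (π / L) ^ n / 4 := by
    calc (((n : ℝ) + 1) / (2 * π)) ^ n * kappa n ^ 4
        = (((n : ℝ) + 1) / (2 * π)) ^ n * (kappa n ^ 2) ^ 2 := by ring
      _ ≤ (((n : ℝ) + 1) / (2 * π)) ^ n * ((2 * π * e / n) ^ n) ^ 2 := by
          gcongr; exact kappa_sq_le_stirling hn2
      _ = (((n : ℝ) + 1) / (2 * π) * (2 * π * e / n) ^ 2 * (L / π)) ^ n * (π / L) ^ n := by
          rw [← pow_mul, mul_comm n 2, pow_mul, ← mul_pow, ← mul_pow]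
          congr 1; field_simp
      _ ≤ b ^ n * (π / L) ^ n := by gcongr
      _ < 1 / 4 * (π / L) ^ n := mul_lt_mul_of_pos_right hbn (by positivity)
      _ = _ := by ring
  refine lt_of_pow_lt_pow_left₀ 2 (by positivity) ?_
  calc (kappa (n - 1) ^ n) ^ 2 = (kappa (n - 1) ^ 2) ^ n := by rw [← pow_mul, ← pow_mul, mul_comm]
    _ ≤ ((((n : ℝ) + 1) / (2 * π)) * kappa n ^ 2) ^ n := pow_le_pow_left₀ (by positivity) h1 n
    _ = (((n : ℝ) + 1) / (2 * π)) ^ n * kappa n ^ 4 * (kappa n ^ (n - 2)) ^ 2 := by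
        rw [mul_pow, mul_assoc, ← pow_mul, ← pow_mul, ← pow_add]
        congr 2
        omega
    _ < (π / L) ^ n / 4 * (kappa n ^ (n - 2)) ^ 2 := mul_lt_mul_of_pos_right h2 (by positivity)
    _ = _ := by
        rw [mul_pow, div_pow (√(π / L) ^ n), ← pow_mul √(π / L) n 2, mul_comm n 2, pow_mul,
          Real.sq_sqrt (by positivity)]
        ring

end Vale.Agent.P237.Facets
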