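import Mathlib

/-!
Helper for P237: weighted vectors can be moved to isotropic position by a linear map.
-/

namespace Vale.Agent.P237.Facets

open Matrix Finset Filter Topology

theorem sqrt_dot_self_pos {n : ℕ} {v : Fin n → ℝ} (h : v ≠ 0) : 0 < √(v ⬝ᵥ v) :=
  Real.sqrt_pos.2 <| lt_of_le_of_ne (Finset.sum_nonneg fun _ _ => mul_self_nonneg _)
    fun e => h (dotProduct_self_eq_zero.1 e.symm)

theorem det_one_add_single {n : ℕ} (p q : Fin n) (ε : ℝ) :
    (1 + Matrix.vecMulVec (Pi.single p 1) (Pi.single q ε) : Matrix (Fin n) (Fin n) ℝ).det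
      = 1 + if p = q then ε else 0 := by
  rw [Matrix.vecMulVec_eq Unit, Matrix.det_one_add_replicateCol_mul_replicateRow]
  congr 1
  by_cases h : p = q <;> simp [h, dotProduct_single]

/-- Isotropic position for the weighted sum of lengths. -/
theorem exists_position {n N : ℕ} (hn : 1 ≤ n) (g : Fin N → ℝ) (hg : ∀ i, 0 ≤ g i)
    (u : Fin N → Fin n → ℝ) (hu : ∀ i, u i ≠ 0)
    (hspan : ∀ θ : Fin n → ℝ, θ ≠ 0 → ∃ i, 0 < g i ∧ θ ⬝ᵥ u i ≠ 0) :
    ∃ T : Matrix (Fin n) (Fin n) ℝ, T.det ≠ 0 ∧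
      ∑ i, (g i / √((T *ᵥ u i) ⬝ᵥ (T *ᵥ u i))) • Matrix.vecMulVec (T *ᵥ u i) (T *ᵥ u i)
        = ((∑ i, g i * √((T *ᵥ u i) ⬝ᵥ (T *ᵥ u i))) / n) • (1 : Matrix (Fin n) (Fin n) ℝ) := by
  classical
  have : Nonempty (Fin n) := ⟨⟨0, hn⟩⟩
  let len : (Fin n → Fin n → ℝ) → Fin N → ℝ := fun T i => √((Matrix.of T *ᵥ u i) ⬝ᵥ (Matrix.of T *ᵥ u i))
  let f : (Fin n → Fin n → ℝ) → ℝ := fun T => ∑ i, g i * len T i
  have hfc : Continuous f := by
    simp only [f, len, Matrix.mulVec, dotProduct, Matrix.of_apply]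
    fun_prop
  have hf0 : ∀ T : (Fin n → Fin n → ℝ), T ≠ 0 → 0 < f T := by
    intro T hT
    obtain ⟨r, hr⟩ := Function.ne_iff.1 hT
    obtain ⟨i, hgi, hi⟩ := hspan (T r) hr
    have hne : Matrix.of T *ᵥ u i ≠ 0 := fun e => hi (congrFun e r)
    refine lt_of_lt_of_le (mul_pos hgi (sqrt_dot_self_pos hne)) ?_
    exact single_le_sum (f := fun j => g j * len T j)
      (fun j _ => mul_nonneg (hg j) (Real.sqrt_nonneg _)) (mem_univ i)
  have hsmul : ∀ (c : ℝ) (T : (Fin n → Fin n → ℝ)), 0 ≤ c → f (c • T) = c * f T := by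
    intro c T hc
    simp only [f, len, mul_sum]
    refine sum_congr rfl fun i _ => ?_
    have : Matrix.of (c • T) *ᵥ u i = c • (Matrix.of T *ᵥ u i) := by
      funext r; simp [Matrix.mulVec, dotProduct, mul_sum, mul_assoc]
    rw [this, smul_dotProduct, dotProduct_smul, smul_eq_mul, smul_eq_mul, ← mul_assoc,
      Real.sqrt_mul (mul_nonneg hc hc), Real.sqrt_mul_self hc]
    ring
  -- the feasible set is compact
  have hone : (fun _ _ => (1 : ℝ) : (Fin n → Fin n → ℝ)) ≠ 0 := fun e => by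
    have := congrFun (congrFun e ⟨0, hn⟩) ⟨0, hn⟩
    simp at this
  obtain ⟨S, hS, hmin⟩ := (isCompact_sphere (0 : (Fin n → Fin n → ℝ)) 1).exists_isMinOn
    ⟨(‖(fun _ _ => (1 : ℝ) : (Fin n → Fin n → ℝ))‖⁻¹ : ℝ) • (fun _ _ => 1 : (Fin n → Fin n → ℝ)), by
      rw [mem_sphere_zero_iff_norm, norm_smul, norm_inv, norm_norm,
        inv_mul_cancel₀ (norm_ne_zero_iff.2 hone)]⟩ hfc.continuousOn
  have hm : 0 < f S := hf0 S fun e => by simp [e] at hS
  have hlow : ∀ T : (Fin n → Fin n → ℝ), f S * ‖T‖ ≤ f T := by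
    intro T
    by_cases hT : T = 0
    · subst hT
      have := hsmul 0 0 le_rfl
      simp only [zero_smul, zero_mul] at this
      simp [this]
    have hn0 : 0 < ‖T‖ := norm_pos_iff.2 hT
    have h1 : f S ≤ f (‖T‖⁻¹ • T) := hmin (by
      rw [mem_sphere_zero_iff_norm, norm_smul, norm_inv, norm_norm, inv_mul_cancel₀ hn0.ne'])
    rw [hsmul _ _ (inv_nonneg.2 hn0.le), inv_mul_eq_div, le_div_iff₀ hn0] at h1
    exact h1
  have hC : IsCompact {T : (Fin n → Fin n → ℝ) | f T ≤ 1} := by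
    refine Metric.isCompact_of_isClosed_isBounded (isClosed_le hfc continuous_const) ?_
    refine (isBounded_iff_forall_norm_le).2 ⟨1 / f S, fun T hT => ?_⟩
    rw [le_div_iff₀ hm]
    linarith [hlow T, mul_comm ‖T‖ (f S), show f T ≤ 1 from hT]
  have hdc : Continuous fun T : (Fin n → Fin n → ℝ) => (Matrix.of T).det := by
    exact Continuous.matrix_det continuous_id
  -- a point of positive determinant
  have hId : ∀ c : ℝ, (Matrix.of (c • (fun a b => (1 : Matrix (Fin n) (Fin n) ℝ) a b : (Fin n → Fin n → ℝ)))).det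
      = c ^ n := fun c => by
    show (c • (1 : Matrix (Fin n) (Fin n) ℝ)).det = c ^ n
    simp
  set I₀ : (Fin n → Fin n → ℝ) := fun a b => (1 : Matrix (Fin n) (Fin n) ℝ) a b with hI₀
  have hI0 : 0 < f I₀ := hf0 _ fun e => by
    have := congrFun (congrFun e ⟨0, hn⟩) ⟨0, hn⟩
    simp [I₀] at this
  obtain ⟨T₀, hT₀, hmax⟩ := hC.exists_isMaxOn
    ⟨(f I₀)⁻¹ • I₀, show f _ ≤ 1 by rw [hsmul _ _ (inv_nonneg.2 hI0.le), inv_mul_cancel₀ hI0.ne']⟩
    hdc.continuousOn
  set D := (Matrix.of T₀).det with hD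
  have hDpos : 0 < D := by
    have hmem : (f I₀)⁻¹ • I₀ ∈ {T : (Fin n → Fin n → ℝ) | f T ≤ 1} :=
      show f _ ≤ 1 by rw [hsmul _ _ (inv_nonneg.2 hI0.le), inv_mul_cancel₀ hI0.ne']
    have h : (Matrix.of ((f I₀)⁻¹ • I₀)).det ≤ D := hmax hmem
    have h' : (Matrix.of ((f I₀)⁻¹ • I₀)).det = (f I₀)⁻¹ ^ n := hId _
    exact lt_of_lt_of_le (by positivity) (h'.symm ▸ h)
  have hhom : ∀ T : (Fin n → Fin n → ℝ), (Matrix.of T).det ≤ D * f T ^ n := by
    intro T
    by_cases hT : T = 0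
    · subst hT
      have h0 : f 0 = 0 := by simpa using hsmul 0 0 le_rfl
      have h1 : (Matrix.of (0 : (Fin n → Fin n → ℝ))).det = 0 := Matrix.det_zero
      rw [h0, h1, zero_pow (by omega), mul_zero]
    have hp := hf0 T hT
    have h : (Matrix.of ((f T)⁻¹ • T)).det ≤ D := hmax
      (show f _ ≤ 1 by rw [hsmul _ _ (inv_nonneg.2 hp.le), inv_mul_cancel₀ hp.ne'])
    have h' : (Matrix.of ((f T)⁻¹ • T)).det = (f T)⁻¹ ^ n * (Matrix.of T).det := by
      show ((f T)⁻¹ • Matrix.of T).det = _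
      rw [Matrix.det_smul, Fintype.card_fin]
    rw [h', inv_pow, inv_mul_eq_div, div_le_iff₀ (by positivity)] at h
    exact h
  have hf1 : f T₀ = 1 := by
    refine le_antisymm hT₀ (not_lt.1 fun hlt => ?_)
    have h := hhom T₀
    have h0 : 0 ≤ f T₀ := le_trans (mul_nonneg hm.le (norm_nonneg _)) (hlow T₀)
    have : f T₀ ^ n < 1 := pow_lt_one₀ h0 hlt (by omega)
    nlinarith
  set v : Fin N → Fin n → ℝ := fun i => Matrix.of T₀ *ᵥ u i with hv
  have hv0 : ∀ i, v i ≠ 0 := fun i e =>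
    hu i (Matrix.eq_zero_of_mulVec_eq_zero hDpos.ne' e)
  -- first order condition
  have key : ∀ p q : Fin n,
      (if p = q then (1 : ℝ) else 0) = n * ∑ i, g i / √(v i ⬝ᵥ v i) * (v i p * v i q) := by
    intro p q
    set E : ℝ → Matrix (Fin n) (Fin n) ℝ := fun ε =>
      1 + Matrix.vecMulVec (Pi.single p 1) (Pi.single q ε) with hE
    have hmove : ∀ ε i, (E ε * Matrix.of T₀) *ᵥ u i = v i + Pi.single p (ε * v i q) := by
      intro ε i
      rw [← Matrix.mulVec_mulVec, Matrix.add_mulVec, Matrix.one_mulVec, Matrix.vecMulVec_mulVec,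
        op_smul_eq_smul]
      congr 1
      rw [← Pi.single_smul, single_dotProduct]
      simp [v]
    have hlen : ∀ ε i, ((E ε * Matrix.of T₀) *ᵥ u i) ⬝ᵥ ((E ε * Matrix.of T₀) *ᵥ u i)
        = v i ⬝ᵥ v i + ε * (2 * (v i p * v i q)) + ε ^ 2 * v i q ^ 2 := by
      intro ε i
      simp only [hmove, add_dotProduct, dotProduct_add, single_dotProduct, dotProduct_single,
        Pi.add_apply, Pi.single_eq_same]
      ring
    let ψ : ℝ → ℝ := fun ε => (1 + if p = q then ε else 0) -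
      (∑ i, g i * √(v i ⬝ᵥ v i + ε * (2 * (v i p * v i q)) + ε ^ 2 * v i q ^ 2)) ^ n
    have hle : ∀ ε, ψ ε ≤ 0 := fun ε => by
      have h := hhom (fun a b => (E ε * Matrix.of T₀) a b)
      have e1 : (Matrix.of fun a b => (E ε * Matrix.of T₀) a b) = E ε * Matrix.of T₀ := rfl
      have e2 : f (fun a b => (E ε * Matrix.of T₀) a b) =
          ∑ i, g i * √(v i ⬝ᵥ v i + ε * (2 * (v i p * v i q)) + ε ^ 2 * v i q ^ 2) :=
        Finset.sum_congr rfl fun i _ => by simp only [len, e1, hlen]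
      rw [e1, e2, Matrix.det_mul, det_one_add_single, mul_comm] at h
      show _ - _ ≤ (0 : ℝ)
      rw [sub_nonpos]
      exact le_of_mul_le_mul_left h hDpos
    have hf1' : ∑ i, g i * √(v i ⬝ᵥ v i) = 1 := hf1
    have hψ0 : ψ 0 = 0 := by simp [ψ, hf1']
    have hloc : IsLocalMax ψ 0 := Filter.Eventually.of_forall fun ε => (hle ε).trans_eq hψ0.symm
    have hder : HasDerivAt ψ ((if p = q then (1 : ℝ) else 0)
        - n * ∑ i, g i / √(v i ⬝ᵥ v i) * (v i p * v i q)) 0 := by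
      have h1 : HasDerivAt (fun ε : ℝ => 1 + if p = q then ε else 0)
          (if p = q then (1 : ℝ) else 0) 0 := by
        by_cases hpq : p = q
        · simp only [hpq, if_true]; exact (hasDerivAt_id _).const_add 1
        · simp only [hpq, if_false]; exact hasDerivAt_const _ _
      have h2 : ∀ i, HasDerivAt
          (fun ε : ℝ => v i ⬝ᵥ v i + ε * (2 * (v i p * v i q)) + ε ^ 2 * v i q ^ 2)
          (2 * (v i p * v i q)) 0 := by
        intro i
        have := (((hasDerivAt_id (0 : ℝ)).mul_const (2 * (v i p * v i q))).const_add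
          (v i ⬝ᵥ v i)).add (((hasDerivAt_id (0 : ℝ)).pow 2).mul_const (v i q ^ 2))
        exact this.congr_deriv (by simp)
      have h3 : HasDerivAt
          (fun ε : ℝ => ∑ i, g i *
            √(v i ⬝ᵥ v i + ε * (2 * (v i p * v i q)) + ε ^ 2 * v i q ^ 2))
          (∑ i, g i / √(v i ⬝ᵥ v i) * (v i p * v i q)) 0 := by
        refine HasDerivAt.fun_sum fun i _ => ?_
        have hs := sqrt_dot_self_pos (hv0 i)
        refine ((h2 i).sqrt (by
          simpa using (Real.sqrt_pos.1 hs).ne')).const_mul (g i) |>.congr_deriv ?_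
        simp only [zero_mul, add_zero, ne_eq, OfNat.ofNat_ne_zero, not_false_eq_true, zero_pow]
        field_simp
      refine (h1.sub (h3.pow n)).congr_deriv ?_
      simp [hf1']
    exact sub_eq_zero.1 (hloc.hasDerivAt_eq_zero hder)
  refine ⟨Matrix.of T₀, hDpos.ne', ?_⟩
  have hsum : ∑ i, g i * √(v i ⬝ᵥ v i) = 1 := hf1
  ext p q
  show (∑ i, (g i / √(v i ⬝ᵥ v i)) • Matrix.vecMulVec (v i) (v i)) p q =
    (((∑ i, g i * √(v i ⬝ᵥ v i)) / n) • (1 : Matrix (Fin n) (Fin n) ℝ)) p q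
  rw [hsum, Matrix.sum_apply, Matrix.smul_apply, Matrix.one_apply, key p q, smul_eq_mul,
    ← mul_assoc, one_div_mul_cancel (by positivity), one_mul]
  simp [Matrix.vecMulVec_apply]

end Vale.Agent.P237.Facets
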