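import Vale.Agent.P237.Facets.Core
import Vale.Agent.P237.Facets.Position

/-!
The isotropic reduction: the projection body of a polytope against the zonotope of an isotropic
configuration and an arbitrary test body.
-/

namespace Vale.Agent.P237.Facets

open MeasureTheory Set Matrix Vale.Agent.P237 Vale.Agent.P237.Frusta
open scoped ENNReal RealInnerProductSpace Pointwise

variable {n N : ℕ}

lemma abs_dot_le_one {x v : Fin n → ℝ} (hx : x ⬝ᵥ x ≤ 1) (hv : v ⬝ᵥ v ≤ 1) : |x ⬝ᵥ v| ≤ 1 := by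
  have h1 : 0 ≤ (x - v) ⬝ᵥ (x - v) := Finset.sum_nonneg fun _ _ => mul_self_nonneg _
  have h2 : 0 ≤ (x + v) ⬝ᵥ (x + v) := Finset.sum_nonneg fun _ _ => mul_self_nonneg _
  simp only [sub_dotProduct, dotProduct_sub, add_dotProduct, dotProduct_add,
    dotProduct_comm v x] at h1 h2
  rw [abs_le]
  constructor <;> linarith

/-- From polytope data, an isotropic configuration of unit vectors `v` with weights `c`, such that
for every set `Q` below the support numbers `q` on the `v i` the displayed inequality holds. -/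
theorem exists_isotropic_test {u : Fin N → Fin n → ℝ} (hn : 1 ≤ n) (hu : ∀ i, u i ≠ 0)
    (hb : IsCompact (poly u 1)) {h : Fin N → ℝ} (hh : h ∈ pos N) :
    ∃ (c : Fin N → ℝ) (v : Fin N → Fin n → ℝ),
      (∀ i, 0 ≤ c i) ∧ (∀ i, v i ⬝ᵥ v i = 1) ∧ gram c v = 1 ∧
      ∀ (q : Fin N → ℝ) (Q : Set (Fin n → ℝ)), q ∈ pos N → (∀ y ∈ Q, ∀ i, y ⬝ᵥ v i ≤ q i) →
        volume (zono (fun i => c i / 2) v) * volume Q * volume (euclidean (poly u h)) ^ (n - 1) ≤
          ENNReal.ofReal (((∑ i, c i * q i) / n) ^ n) *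
            volume (projBody (euclidean (poly u h))) := by
  obtain ⟨g, hg'⟩ := exists_supergradient hb hh
  have hg : IsSupergrad u h g := ⟨hg'⟩
  have hg0 := hg.nonneg hb hh
  set V := vol u h with hVdef
  have hV : 0 < V := vol_pos hb hh
  set Z := zono (fun i => V * g i / 2) u with hZ
  have hsub : euclidean Z ⊆ projBody (euclidean (poly u h)) := by
    rintro _ ⟨_, ⟨s, hs, rfl⟩, rfl⟩ θ hθ
    have h1 := grad_le_shadow hb hh hg hθ
    have h2 := grad_le_shadow hb hh hg (θ := -θ) (by rw [norm_neg]; exact hθ)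
    rw [shadow_neg] at h2
    rw [inner_toLp, sum_dotProduct]
    calc ∑ i, (s i • u i) ⬝ᵥ θ.ofLp ≤ ∑ i, V * g i / 2 *
          (max (θ.ofLp ⬝ᵥ u i) 0 + max ((-θ).ofLp ⬝ᵥ u i) 0) := by
          refine Finset.sum_le_sum fun i _ => ?_
          have hsi := hs i (mem_univ i)
          rw [smul_dotProduct, smul_eq_mul, dotProduct_comm, WithLp.ofLp_neg, neg_dotProduct,
            max_zero_add_max_neg_zero_eq_abs_self]
          calc s i * (θ.ofLp ⬝ᵥ u i) ≤ |s i * (θ.ofLp ⬝ᵥ u i)| := le_abs_self _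
            _ ≤ V * g i / 2 * |θ.ofLp ⬝ᵥ u i| := by
                rw [abs_mul]
                exact mul_le_mul_of_nonneg_right (abs_le.mpr hsi) (abs_nonneg _)
      _ = (V * (g ⬝ᵥ fun i => max (θ.ofLp ⬝ᵥ u i) 0) +
            V * (g ⬝ᵥ fun i => max ((-θ).ofLp ⬝ᵥ u i) 0)) / 2 := by
          simp only [dotProduct, Finset.mul_sum, ← Finset.sum_add_distrib, Finset.sum_div]
          exact Finset.sum_congr rfl fun i _ => by ring
      _ ≤ _ := by linarith
  have cball : IsCompact {x : Fin n → ℝ | x ⬝ᵥ x ≤ 1} := by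
    refine (isCompact_closedBall (0 : Fin n → ℝ) 1).of_isClosed_subset
      (isClosed_le (by fun_prop) continuous_const) fun x hx => ?_
    rw [mem_closedBall_zero_iff, pi_norm_le_iff_of_nonneg zero_le_one]
    intro k
    rw [Real.norm_eq_abs]
    have := Finset.single_le_sum (f := fun j => x j * x j) (fun j _ => mul_self_nonneg _)
      (Finset.mem_univ k)
    exact abs_le_one_iff_mul_self_le_one.mpr (this.trans hx)
  set B : ℝ := (volume {x : Fin n → ℝ | x ⬝ᵥ x ≤ 1}).toReal with hBdef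
  have hB0 : 0 < B := by
    refine ENNReal.toReal_pos (ne_of_gt ?_) cball.measure_ne_top
    exact ((isOpen_lt (by fun_prop : Continuous fun x : Fin n → ℝ => x ⬝ᵥ x)
      continuous_const).measure_pos volume ⟨0, by simp⟩).trans_le
      (measure_mono fun x hx => (le_of_lt hx : x ⬝ᵥ x ≤ (1 : ℝ)))
  have hB : ∀ v : Fin N → Fin n → ℝ, (∀ i, v i ⬝ᵥ v i ≤ 1) →
      ENNReal.ofReal B ≤ volume (slabs v) := fun v hv => by
    rw [hBdef, ENNReal.ofReal_toReal cball.measure_ne_top]
    exact measure_mono fun x hx i => abs_dot_le_one hx (hv i)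
  obtain ⟨T, hT, hiso⟩ := exists_position hn g hg0 u hu (weights_span hn hu hb hh hg hB0 hB)
  have hTu : ∀ i, T *ᵥ u i ≠ 0 := fun i e => hu i (Matrix.eq_zero_of_mulVec_eq_zero hT e)
  obtain ⟨hF0, -⟩ := minkowski_linear hn hu hb hh hg hB hT
  set F := ∑ i, g i * len (T *ᵥ u i) with hF
  have hn0 : (0 : ℝ) < n := by exact_mod_cast hn
  set v : Fin N → Fin n → ℝ := fun i => (len (T *ᵥ u i))⁻¹ • (T *ᵥ u i) with hv
  set c : Fin N → ℝ := fun i => g i * len (T *ᵥ u i) * (n / F) with hc
  have hc0 : ∀ i, 0 ≤ c i := fun i =>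
    mul_nonneg (mul_nonneg (hg0 i) (len_pos (hTu i)).le) (div_nonneg hn0.le hF0.le)
  have hv1 : ∀ i, v i ⬝ᵥ v i = 1 := fun i => by
    simp only [hv, smul_dotProduct, dotProduct_smul, smul_eq_mul, ← len_sq]
    field_simp [(len_pos (hTu i)).ne']
  have hgram : gram c v = 1 := by
    have e : gram c v = ((n : ℝ) / F) • ∑ i, (g i / √((T *ᵥ u i) ⬝ᵥ (T *ᵥ u i))) •
        vecMulVec (T *ᵥ u i) (T *ᵥ u i) := by
      rw [gram, Finset.smul_sum]
      refine Finset.sum_congr rfl fun i _ => ?_
      simp only [hv, hc, vecMulVec_smul, smul_vecMulVec, smul_smul]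
      congr 1
      have := (len_pos (hTu i)).ne'
      change _ = (n : ℝ) / F * (g i / len (T *ᵥ u i))
      field_simp
    rw [e, hiso, smul_smul]
    change ((n : ℝ) / F * (F / n)) • (1 : Matrix (Fin n) (Fin n) ℝ) = 1
    rw [div_mul_div_comm, mul_comm (n : ℝ) F, div_self (by positivity), one_smul]
  refine ⟨c, v, hc0, hv1, hgram, fun q Q hq hQ => ?_⟩
  set a : ℝ := (∑ i, c i * q i) / n with ha
  -- the test body gives a polytope with support numbers `q i * |T u i|`
  set q' : Fin N → ℝ := fun i => q i * len (T *ᵥ u i) with hq'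
  have hqpos : q' ∈ pos N := fun i => mul_pos (hq i) (len_pos (hTu i))
  obtain ⟨-, hmink⟩ := hg.minkowski hb hn hh hqpos
  have hdot : g ⬝ᵥ q' = F * a := by
    simp only [ha, hc, hq', dotProduct, Finset.mul_sum, Finset.sum_div]
    refine Finset.sum_congr rfl fun i _ => ?_
    field_simp
  rw [hdot, mul_pow] at hmink
  have hsubQ : Matrix.toLin' Tᵀ '' Q ⊆ poly u q' := by
    rintro _ ⟨y, hy, rfl⟩ i
    rw [Matrix.toLin'_apply, Matrix.mulVec_transpose, ← Matrix.dotProduct_mulVec]
    have h2 := hQ y hy i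
    simp only [hv, dotProduct_smul, smul_eq_mul] at h2
    rw [inv_mul_le_iff₀ (len_pos (hTu i)), mul_comm] at h2
    exact h2
  have h1 := measure_mono (μ := volume) hsubQ
  rw [Measure.addHaar_image_linearMap, LinearMap.det_toLin', Matrix.det_transpose,
    ← ENNReal.ofReal_toReal (isCompact_poly hb q').measure_ne_top] at h1
  -- the zonotope
  have himg : ((V * F / n) • zono (fun i => c i / 2) v) ⊆ Matrix.toLin' T '' Z := by
    rw [hZ, zono_image]
    rintro _ ⟨_, ⟨s, hs, rfl⟩, rfl⟩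
    refine ⟨fun i => V * F / n * (s i / len (T *ᵥ u i)), fun i _ => ?_, ?_⟩
    · have hl := len_pos (hTu i)
      have hs' : |s i| ≤ c i / 2 := abs_le.mpr (hs i (mem_univ i))
      refine abs_le.mp ?_
      rw [abs_mul (V * F / n), abs_div (s i), abs_of_pos hl,
        abs_of_nonneg (by positivity : 0 ≤ V * F / n)]
      calc V * F / n * (|s i| / len (T *ᵥ u i)) ≤ V * F / n * (c i / 2 / len (T *ᵥ u i)) := by
            gcongr
        _ = V * g i / 2 := by simp only [hc]; field_simp
    · change _ = (V * F / n) • ∑ i, s i • v i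
      rw [Finset.smul_sum]
      refine Finset.sum_congr rfl fun i _ => ?_
      simp [hv, smul_smul, Matrix.toLin'_apply, div_eq_mul_inv, mul_assoc]
  have h2 := measure_mono (μ := volume) himg
  rw [Measure.addHaar_smul_of_nonneg volume (by positivity : (0 : ℝ) ≤ V * F / n),
    Module.finrank_fin_fun, Measure.addHaar_image_linearMap, LinearMap.det_toLin'] at h2
  -- assemble
  have hd : ENNReal.ofReal |T.det| ≠ 0 := by
    rw [Ne, ENNReal.ofReal_eq_zero, not_le]; exact abs_pos.mpr hT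
  have ha0 : 0 ≤ a := div_nonneg (Finset.sum_nonneg fun i _ => mul_nonneg (hc0 i) (hq i).le) hn0.le
  refine le_trans ?_ (mul_le_mul_right ((volume_euclidean Z).ge.trans (measure_mono hsub)) _)
  refine (ENNReal.mul_le_mul_iff_right hd ENNReal.ofReal_ne_top).mp ?_
  rw [volume_euclidean, ← ENNReal.ofReal_toReal (isCompact_poly hb h).measure_ne_top,
    ← ENNReal.ofReal_pow ENNReal.toReal_nonneg]
  calc ENNReal.ofReal |T.det| * (volume (zono (fun i => c i / 2) v) * volume Q *
        ENNReal.ofReal (V ^ (n - 1)))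
      = volume (zono (fun i => c i / 2) v) * (ENNReal.ofReal |T.det| * volume Q) *
          ENNReal.ofReal (V ^ (n - 1)) := by ring
    _ ≤ volume (zono (fun i => c i / 2) v) * ENNReal.ofReal (vol u q') *
          ENNReal.ofReal (V ^ (n - 1)) := by gcongr; exact h1
    _ = volume (zono (fun i => c i / 2) v) * ENNReal.ofReal (vol u q' * V ^ (n - 1)) := by
        rw [mul_assoc, ← ENNReal.ofReal_mul (show 0 ≤ vol u q' from ENNReal.toReal_nonneg)]
    _ ≤ volume (zono (fun i => c i / 2) v) * ENNReal.ofReal ((V * F / n) ^ n * a ^ n) := by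
        refine mul_le_mul_right (ENNReal.ofReal_le_ofReal ?_) _
        rw [div_pow, div_mul_eq_mul_div, le_div_iff₀ (pow_pos hn0 n)]
        calc vol u q' * V ^ (n - 1) * (n : ℝ) ^ n = (n : ℝ) ^ n * vol u q' * V ^ (n - 1) := by ring
          _ ≤ F ^ n * a ^ n * V * V ^ (n - 1) :=
              mul_le_mul_of_nonneg_right hmink (pow_nonneg hV.le _)
          _ = (V * F) ^ n * a ^ n := by
              rw [mul_assoc (F ^ n * a ^ n), ← pow_succ', Nat.sub_add_cancel hn]
              ring
    _ = ENNReal.ofReal (a ^ n) * (ENNReal.ofReal ((V * F / n) ^ n) *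
          volume (zono (fun i => c i / 2) v)) := by
        rw [ENNReal.ofReal_mul (by positivity : (0 : ℝ) ≤ (V * F / n) ^ n)]; ring
    _ ≤ ENNReal.ofReal (a ^ n) * (ENNReal.ofReal |T.det| * volume Z) := by gcongr
    _ = ENNReal.ofReal |T.det| * (ENNReal.ofReal (a ^ n) * volume Z) := by ring

end Vale.Agent.P237.Facets
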